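import Vale.Agent.P284.H573.HForm
import Mathlib.MeasureTheory.Integral.Lebesgue.Basic
import Mathlib.Topology.Covering.Basic
import Mathlib.MeasureTheory.Measure.Haar.OfBasis

/-!
# P284 (helper501), module EXT: statements

`S` is a `W`-valued holomorphic `(q+1)`-form on the covering `E`, `S = O ∧ Θ` where `dF` is onto
(`O = dF_1 ∧ … ∧ dF_q`), with push-forward bounded by the Lebesgue measure (flat energy). Then all the
forms `O ∧ μ(Θ, …, Θ)`, `μ` multilinear, are holomorphic on all of `E`.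
-/

open scoped Manifold ContDiff Topology ENNReal
open Filter MeasureTheory

noncomputable section

namespace Vale.Agent.P284.H501

open Vale.Agent.P272.K

section
variable {n q : ℕ} {W T : Type*} [AddCommGroup T] [Module ℂ T]

/-- `O ∧ μ(Θ, …, Θ)` on the vectors `ξ`, where `L = dF` and `O = L_1 ∧ … ∧ L_q`. For `L (ξ (q + a)) = 0`:
`det (L ξ_1, …, L ξ_q) • ∑ τ, sign τ • μ(Θ ξ_{q + τ 1}, …)`. -/
def gf (k : ℕ) (L : Cm n →L[ℂ] Cm q) (Θ : Cm n → W) (μ : (Fin k → W) → T)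
    (ξ : Fin (q + k) → Cm n) : T :=
  ((q.factorial : ℂ)⁻¹) • ∑ σ : Equiv.Perm (Fin (q + k)), ((Equiv.Perm.sign σ : ℤ) : ℂ) •
    ((Matrix.of fun i j : Fin q => L (ξ (σ (Fin.castAdd k i))) j).det •
      μ fun a => Θ (ξ (σ (Fin.natAdd q a))))

end

section
variable {n q : ℕ} {W : Type*} [NormedAddCommGroup W] [NormedSpace ℂ W]

/-- `S = O ∧ Θ` -/
def IsW (L : Cm n →L[ℂ] Cm q) (S : Cm n [⋀^Fin (q + 1)]→L[ℂ] W) (Θ : Cm n →L[ℂ] W) : Prop :=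
  ∀ ξ, S ξ = gf 1 L Θ (fun w => w 0) ξ

/-- a point near which `S = O ∧ Θ` with an analytic `Θ` -/
def Good (t : Cm n → Cm q) (S : Cm n → Cm n [⋀^Fin (q + 1)]→L[ℂ] W) (z : Cm n) : Prop :=
  ∃ Θ : Cm n → (Cm n →L[ℂ] W), AnalyticAt ℂ Θ z ∧ ∀ᶠ z' in 𝓝 z, IsW (fderiv ℂ t z') (S z') (Θ z')

end

/-- **Theorem A** (helper500), in `ℂⁿ`. -/
def ThmAStmt : Prop :=
  ∀ (n q : ℕ) (W H : Type) [NormedAddCommGroup W] [NormedSpace ℂ W] [CompleteSpace W]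
    [NormedAddCommGroup H] [NormedSpace ℂ H] [CompleteSpace H] (U : Set (Cm n)), IsOpen U →
    ∀ (t : Cm n → Cm q) (S : Cm n → Cm n [⋀^Fin (q + 1)]→L[ℂ] W),
    (∀ z ∈ U, AnalyticAt ℂ t z) → (∀ z ∈ U, AnalyticAt ℂ S z) →
    (∀ z ∈ U, ∃ᶠ z' in 𝓝 z, Function.Surjective (fderiv ℂ t z')) →
    (∀ z ∈ U, Function.Surjective (fderiv ℂ t z) → ∃ Θ, IsW (fderiv ℂ t z) (S z) Θ) →
    (∃ C : ℝ≥0∞, C ≠ ⊤ ∧ ∀ g : Cm q → ℝ≥0∞, Measurable g →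
      ∫⁻ z in U, g (t z) * ‖S z‖ₑ ^ 2 ≤ C * ∫⁻ x, g x) →
    ∀ (h : Cm n → ℂ) (φ : Cm n → H), (∀ z ∈ U, AnalyticAt ℂ h z) → (∀ z ∈ U, AnalyticAt ℂ φ z) →
    (∀ z ∈ U, ∃ᶠ z' in 𝓝 z, h z' ≠ 0) →
    (∀ z ∈ U, Good t S z → ∃ C : ℝ, ∀ᶠ z' in 𝓝 z, ‖φ z'‖ ≤ C * ‖h z'‖) →
    ∃ g : Cm n → H, (∀ z ∈ U, AnalyticAt ℂ g z) ∧ ∀ z ∈ U, φ z = h z • g z

section
variable {n q : ℕ} {X E : Type} [TopologicalSpace X] [ChartedSpace (Cm n) X] [TopologicalSpace E]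

/-- `f` is the holomorphic local representative of `F : E → ℂ^q` near `y` in the chart `e`. -/
def Rep (p : E → X) (F : E → Cm q) (y : E) (e : Chart n X) (f : Cm n → Cm q) : Prop :=
  AnalyticAt ℂ f (e (p y)) ∧ ∀ᶠ y' in 𝓝 y, F y' = f (e (p y'))

/-- `S` is a `W`-valued holomorphic `m`-form on the covering `p : E → X`. -/
structure FormE (p : E → X) {m : ℕ} {T : Type} [NormedAddCommGroup T] [NormedSpace ℂ T]
    (S : E → Chart n X → Cm n [⋀^Fin m]→L[ℂ] T) : Prop where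
  holo : ∀ y e, At e (p y) → ∃ s : Cm n → Cm n [⋀^Fin m]→L[ℂ] T, AnalyticAt ℂ s (e (p y)) ∧
    ∀ᶠ y' in 𝓝 y, S y' e = s (e (p y'))
  change : ∀ y e e', At e (p y) → At e' (p y) → ∀ ξ,
    S y e ξ = S y e' (fun i => fderiv ℂ (fun z => e' (e.symm z)) (e (p y)) (ξ i))

/-- Output of (A'') and of the limit, input of EXT. -/
structure RelS (p : E → X) (F : E → Cm q) {W : Type} [NormedAddCommGroup W] [NormedSpace ℂ W]
    (S : E → Chart n X → Cm n [⋀^Fin (q + 1)]→L[ℂ] W) : Prop where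
  form : FormE p S
  /-- `S = O ∧ Θ` where `dF` is onto -/
  rel : ∀ y e f, At e (p y) → Rep p F y e f → Function.Surjective (fderiv ℂ f (e (p y))) →
    ∀ (ξ : Fin (q + 1) → Cm n) (i j : Fin (q + 1)), i ≠ j → fderiv ℂ f (e (p y)) (ξ i) = 0 →
    fderiv ℂ f (e (p y)) (ξ j) = 0 → S y e ξ = 0
  /-- flat energy: the push-forward of `|S|²` is bounded by the Lebesgue measure -/
  push : ∀ y e f (s : Cm n → Cm n [⋀^Fin (q + 1)]→L[ℂ] W), At e (p y) → Rep p F y e f →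
    AnalyticAt ℂ s (e (p y)) → (∀ᶠ y' in 𝓝 y, S y' e = s (e (p y'))) →
    ∃ V ∈ 𝓝 (e (p y)), ∃ C : ℝ≥0∞, C ≠ ⊤ ∧ ∀ g : Cm q → ℝ≥0∞, Measurable g →
      ∫⁻ z in V, g (f z) * ‖s z‖ₑ ^ 2 ≤ C * ∫⁻ x, g x

/-- `G = O ∧ μ(Θ, …, Θ)` where `dF` is onto (there `S = O ∧ Θ` for some `Θ`). -/
def IsG (p : E → X) (F : E → Cm q) {W T : Type} [NormedAddCommGroup W] [NormedSpace ℂ W]
    [NormedAddCommGroup T] [NormedSpace ℂ T] (S : E → Chart n X → Cm n [⋀^Fin (q + 1)]→L[ℂ] W)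
    {k : ℕ} (μ : ContinuousMultilinearMap ℂ (fun _ : Fin k => W) T)
    (G : E → Chart n X → Cm n [⋀^Fin (q + k)]→L[ℂ] T) : Prop :=
  ∀ y e f, At e (p y) → Rep p F y e f → Function.Surjective (fderiv ℂ f (e (p y))) →
    ∀ Θ : Cm n →L[ℂ] W, IsW (fderiv ℂ f (e (p y))) (S y e) Θ →
    ∀ ξ, G y e ξ = gf k (fderiv ℂ f (e (p y))) Θ μ ξ

end

/-- **EXT**, on the covering. -/
def ExtStmt : Prop :=
  ∀ (n q : ℕ) (X E : Type) [TopologicalSpace X] [ChartedSpace (Cm n) X]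
    [IsManifold 𝓘(ℂ, Cm n) ω X] [TopologicalSpace E] (p : E → X), IsCoveringMap p →
    ∀ (F : E → Cm q), (∀ y (e : Chart n X), At e (p y) → ∃ f, Rep p F y e f) →
    (∀ y (e : Chart n X) f, At e (p y) → Rep p F y e f →
      ∃ᶠ z in 𝓝 (e (p y)), Function.Surjective (fderiv ℂ f z)) →
    ∀ (W : Type) [NormedAddCommGroup W] [NormedSpace ℂ W] [CompleteSpace W]
    (S : E → Chart n X → Cm n [⋀^Fin (q + 1)]→L[ℂ] W), RelS p F S →
    ∀ (k : ℕ) (T : Type) [NormedAddCommGroup T] [NormedSpace ℂ T] [CompleteSpace T]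
    (μ : ContinuousMultilinearMap ℂ (fun _ : Fin k => W) T),
    ∃ G : E → Chart n X → Cm n [⋀^Fin (q + k)]→L[ℂ] T, FormE p G ∧ IsG p F S μ G

end Vale.Agent.P284.H501
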