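import Vale.Agent.P284.H501.ExtF
import Vale.Agent.P284.H286.ThmA

/-!
# P284 (helper501), module EXT: unconditional statement
-/

noncomputable section

namespace Vale.Agent.P284.H501

/-- **EXT** on the covering -/
theorem extStmt : ExtStmt := ext_of_thmA H286.thmAStmt

end Vale.Agent.P284.H501
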