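import Vale.Agent.P284.H501.ExtE

/-!
# P284 (helper501), module EXT: EXT from helper500's Theorem A; equivariance
-/

open scoped Manifold ContDiff Topology ENNReal
open Filter MeasureTheory Set

noncomputable section

namespace Vale.Agent.P284.H501

open Vale.Agent.P272.K

theorem thmAR_of (h : H500.ThmAStmt.{0, 0, 0}) : ThmARStmt := by
  intro n q W Z _ _ _ _ _ _ t S U h' φ x₀ hU ht hS hrel htube hh hφ hx₀ hf hO hg
  exact h (Cm n) volume W q t S U Z h' φ x₀ hU ht hS
    (fun x hx hs ξ i j hij hi hj => hrel x hx hs ξ i j hij hi hj) htube hh hφ hx₀ hf hO hg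

/-- **EXT** from Theorem A of helper500 -/
theorem ext_of_thmA (h : H500.ThmAStmt.{0, 0, 0}) : ExtStmt := ext_of (thmAR_of h)

section
variable {n q k : ℕ} {X E : Type} [TopologicalSpace X] [ChartedSpace (Cm n) X]
  [TopologicalSpace E] {p : E → X} {F : E → Cm q}
  {W T : Type} [NormedAddCommGroup W] [NormedSpace ℂ W] [NormedAddCommGroup T] [NormedSpace ℂ T]

/-- equivariance of the extended forms -/
theorem equi_of (hp : IsLocalHomeomorph p)
    (hF : ∀ y (e : Chart n X), At e (p y) → ∃ f, Rep p F y e f)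
    (hs : ∀ y (e : Chart n X) f, At e (p y) → Rep p F y e f →
      ∃ᶠ z in 𝓝 (e (p y)), Function.Surjective (fderiv ℂ f z))
    {S : E → Chart n X → Cm n [⋀^Fin (q + 1)]→L[ℂ] W}
    (hrel : ∀ y e f, At e (p y) → Rep p F y e f → Function.Surjective (fderiv ℂ f (e (p y))) →
      RelP (fderiv ℂ f (e (p y))) (S y e))
    {μ : ContinuousMultilinearMap ℂ (fun _ : Fin k => W) T}
    {G : E → Chart n X → Cm n [⋀^Fin (q + k)]→L[ℂ] T} (hG : FormE p G) (hI : IsG p F S μ G)
    {a : E → E} (ha : Continuous a) (hpa : ∀ y, p (a y) = p y) {c : Cm q}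
    (hFa : ∀ y, F (a y) = F y + c) {A : W →L[ℂ] W} {B : T →L[ℂ] T}
    (hSa : ∀ y e, At e (p y) → ∀ ξ, S (a y) e ξ = A (S y e ξ))
    (hμ : ∀ w : Fin k → W, μ (fun i => A (w i)) = B (μ w))
    {y : E} {e : Chart n X} (he : At e (p y)) (ξ : Fin (q + k) → Cm n) :
    G (a y) e ξ = B (G y e ξ) := by
  obtain ⟨f, hf⟩ := hF y e he
  obtain ⟨g1, hg1, hg1'⟩ := hG.holo y e he
  obtain ⟨g2, hg2, hg2'⟩ := hG.holo (a y) e (by rw [hpa]; exact he)
  rw [hpa] at hg2
  have h2 : ∀ᶠ y' in 𝓝 y, G (a y') e = g2 (e (p y')) := by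
    have := (ha.continuousAt (x := y)).eventually hg2'
    filter_upwards [this] with y' h
    rw [h, hpa]
  have key : g2 (e (p y)) ξ = B (g1 (e (p y)) ξ) := by
    refine eq_of_frequently (A := fun z => g2 z ξ) (B := fun z => B (g1 z ξ))
      (an_apply hg2 ξ).continuousAt ?_ ?_
    · exact B.continuous.continuousAt.comp (an_apply hg1 ξ).continuousAt
    · have h3 := ep_ex hp he ((ep_at hp he).and ((hf.near hp he).and (hg1'.and h2)))
      refine ((hs y e f he hf).and_eventually h3).mono ?_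
      rintro z ⟨hz, y', rfl, hy1, hy2, hy3, hy4⟩
      show g2 (e (p y')) ξ = B (g1 (e (p y')) ξ)
      rw [← hy3, ← hy4]
      obtain ⟨Θ, hΘ⟩ := exists_isW (hrel y' e f hy1 hy2 hz) hz
      have hy1' : At e (p (a y')) := by rw [hpa]; exact hy1
      -- the representative at `a y'`
      have hf' : Rep p F (a y') e (fun z => f z + c) := by
        refine ⟨by rw [hpa]; exact hy2.1.add analyticAt_const, ?_⟩
        -- near `a y'` use the local inverse
        obtain ⟨f2, hf2⟩ := hF (a y') e hy1'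
        have h5 : ∀ᶠ y'' in 𝓝 y', f2 (e (p y'')) = f (e (p y'')) + c := by
          have h6 := (ha.continuousAt (x := y')).eventually hf2.2
          filter_upwards [h6, hy2.2] with y'' h7 h8
          rw [hFa, hpa] at h7
          rw [← h7, h8]
        have h6 : ∀ᶠ z in 𝓝 (e (p y')), f2 z = f z + c := (ep_ev hp hy1).1 h5
        have h7 : ∀ᶠ z in 𝓝 (e (p (a y'))), f2 z = f z + c := by rw [hpa]; exact h6
        filter_upwards [hf2.2, (ep_ev hp hy1').2 h7] with y'' h8 h9
        rw [h8, h9]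
      have hd : fderiv ℂ (fun z => f z + c) (e (p (a y'))) = fderiv ℂ f (e (p y')) := by
        rw [hpa, fderiv_add_const]
      have hΘ' : IsW (fderiv ℂ (fun z => f z + c) (e (p (a y')))) (S (a y') e) (A.comp Θ) := by
        intro ζ
        rw [hSa y' e hy1, hΘ, hd]
        unfold gf
        rw [map_smul, map_sum]
        congr 1
        refine Finset.sum_congr rfl fun σ _ => ?_
        rw [map_smul, map_smul]
        rfl
      have h8 := hI (a y') e _ hy1' hf' (by rw [hd]; exact hz) _ hΘ' ξ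
      have h9 := hI y' e f hy1 hy2 hz Θ hΘ ξ
      rw [h8, h9, hd]
      unfold gf
      rw [map_smul, map_sum]
      congr 1
      refine Finset.sum_congr rfl fun σ _ => ?_
      rw [map_smul, map_smul]
      congr 2
      exact hμ _
  rw [hg2'.self_of_nhds, hg1'.self_of_nhds, hpa]
  exact key

end

end Vale.Agent.P284.H501
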