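import Vale.Agent.P284.H501.GeoE
import Vale.Agent.P284.H894.V.V8

/-!
# P284 (helper501): the abstract lemma A1

`N t`, `H t`, `V0`: forms of the metric `w + t w_A` (normalised), `L t` its Laplacian,
`N t (L t f) h = -(V0 f h + H t f h / t)`. If bounded sequences with vertical energy `V0 → 0` escape and
there are Følner functions, then there are functions `d` with `M t d ≤ ε V0 d d` and
`H t d d * N t (L t d) (L t d) ≤ ε (V0 d d)²`.
-/

open Finset Filter Topology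

noncomputable section

namespace Vale.Agent.P284.H501

open Vale.Agent.P284.H894.V.Abs

variable {V : Type} [AddCommGroup V] [Module ℝ V]

/-- approximate solutions of the implicit Euler steps -/
structure ASeq (ip : V →ₗ[ℝ] V →ₗ[ℝ] ℝ) (L : V →ₗ[ℝ] V) (σ : ℕ → ℝ) (ρ : ℝ) (f₀ : V)
    (u r : ℕ → V) : Prop where
  zero : u 0 = f₀
  eqn : ∀ j, u j + r j = u (j + 1) - σ j • L (u (j + 1))
  small : ∀ j, N ip (r j) ≤ ρ

section

variable {ip en H : V →ₗ[ℝ] V →ₗ[ℝ] ℝ} {L : V →ₗ[ℝ] V}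

theorem step_exists (hD : ∀ μ : ℝ, 0 < μ → D ip L μ) {σ : ℝ} (hσ : 0 < σ) (f : V) {ρ : ℝ}
    (hρ : 0 < ρ) : ∃ u, N ip (u - σ • L u - f) < ρ := by
  obtain ⟨v, hv⟩ := hD σ⁻¹ (inv_pos.2 hσ) (σ⁻¹ • f) (ρ / σ) (by positivity)
  refine ⟨v, ?_⟩
  have h1 : v - σ • L v - f = σ • (σ⁻¹ • v - L v - σ⁻¹ • f) := by
    rw [smul_sub, smul_sub, smul_smul, smul_smul, mul_inv_cancel₀ hσ.ne', one_smul, one_smul]
  rw [h1, N_smul, abs_of_pos hσ]
  rw [lt_div_iff₀ hσ] at hv
  linarith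

theorem exists_aseq (hD : ∀ μ : ℝ, 0 < μ → D ip L μ) {σ : ℕ → ℝ} (hσ : ∀ j, 0 < σ j) (f₀ : V) {ρ : ℝ}
    (hρ : 0 < ρ) : ∃ u r, ASeq ip L σ ρ f₀ u r := by
  choose F hF using fun (j : ℕ) (f : V) => step_exists hD (hσ j) f hρ
  let u : ℕ → V := fun j => Nat.rec f₀ (fun j f => F j f) j
  have hu : ∀ j, u (j + 1) = F j (u j) := fun j => rfl
  refine ⟨u, fun j => u (j + 1) - σ j • L (u (j + 1)) - u j, rfl, fun j => by abel, fun j => ?_⟩
  have := (hF j (u j)).le
  rw [← hu] at this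
  exact this

theorem step_bd (ips : ∀ f h, ip f h = ip h f) (ip0 : ∀ f, 0 ≤ ip f f) (en0 : ∀ f, 0 ≤ en f f)
    (hL : ∀ f h, ip (L f) h = -en f h) {σ : ℝ} (hσ : 0 < σ) {f r u : V}
    (h : f + r = u - σ • L u) :
    N ip u ≤ N ip f + N ip r ∧ σ * N ip (L u) ≤ N ip f + N ip r ∧
      2 * σ * en u u ≤ (N ip f + N ip r) ^ 2 := by
  have h1 : ip (u - σ • L u) (u - σ • L u) =
      ip u u + 2 * σ * en u u + σ ^ 2 * ip (L u) (L u) := by
    simp only [map_sub, LinearMap.sub_apply, map_smul, LinearMap.smul_apply, smul_eq_mul]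
    rw [ips u (L u), hL]
    ring
  have h2 : ip (u - σ • L u) (u - σ • L u) ≤ (N ip f + N ip r) ^ 2 := by
    rw [← N_sq ip0, ← h]
    exact pow_le_pow_left₀ (N_nonneg _ _) (N_add ips ip0 f r) 2
  rw [h1] at h2
  have h3 : 0 ≤ N ip f + N ip r := add_nonneg (N_nonneg _ _) (N_nonneg _ _)
  have h4 := ip0 u
  have h5 : 0 ≤ 2 * σ * en u u := mul_nonneg (by positivity) (en0 u)
  have h6 : 0 ≤ σ ^ 2 * ip (L u) (L u) := mul_nonneg (sq_nonneg _) (ip0 _)
  refine ⟨?_, ?_, by linarith⟩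
  · refine (pow_le_pow_iff_left₀ (N_nonneg _ _) h3 two_ne_zero).1 ?_
    rw [N_sq ip0]
    linarith
  · refine (pow_le_pow_iff_left₀ (mul_nonneg hσ.le (N_nonneg _ _)) h3 two_ne_zero).1 ?_
    rw [mul_pow, N_sq ip0]
    linarith

theorem ASeq.bd (ips : ∀ f h, ip f h = ip h f) (ip0 : ∀ f, 0 ≤ ip f f) (en0 : ∀ f, 0 ≤ en f f)
    (hL : ∀ f h, ip (L f) h = -en f h) {σ : ℕ → ℝ} (hσ : ∀ j, 1 ≤ σ j) {ρ : ℝ} {f₀ : V}
    {u r : ℕ → V} (h : ASeq ip L σ ρ f₀ u r) {K : ℕ} {R : ℝ} (hR : N ip f₀ + (K + 1) * ρ ≤ R) :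
    (∀ j, j ≤ K + 1 → N ip (u j) ≤ R) ∧ (∀ j, j ≤ K → N ip (L (u (j + 1))) ≤ R) ∧
      ∀ j, j ≤ K → 2 * σ j * en (u (j + 1)) (u (j + 1)) ≤ R ^ 2 := by
  have hρ : 0 ≤ ρ := (N_nonneg _ _).trans (h.small 0)
  have h1 : ∀ j, N ip (u j) ≤ N ip f₀ + j * ρ := by
    intro j
    induction j with
    | zero => rw [h.zero]; simp
    | succ j ih =>
      have h2 := (step_bd ips ip0 en0 hL (one_pos.trans_le (hσ j)) (h.eqn j)).1
      have h3 := h.small j
      push_cast
      linarith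
  have h2 : ∀ j : ℕ, j ≤ K + 1 → (j : ℝ) * ρ ≤ (K + 1) * ρ := by
    intro j hj
    refine mul_le_mul_of_nonneg_right ?_ hρ
    exact_mod_cast hj
  have h3 : ∀ j, j ≤ K → N ip (u j) + N ip (r j) ≤ R := by
    intro j hj
    have h4 := h1 j
    have h5 := h.small j
    have h6 := h2 (j + 1) (by omega)
    push_cast at h6
    linarith
  refine ⟨fun j hj => (h1 j).trans (by linarith [h2 j hj]), fun j hj => ?_, fun j hj => ?_⟩
  · have h4 := (step_bd ips ip0 en0 hL (one_pos.trans_le (hσ j)) (h.eqn j)).2.1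
    have h5 : 1 * N ip (L (u (j + 1))) ≤ σ j * N ip (L (u (j + 1))) :=
      mul_le_mul_of_nonneg_right (hσ j) (N_nonneg _ _)
    linarith [h3 j hj]
  · have h4 := (step_bd ips ip0 en0 hL (one_pos.trans_le (hσ j)) (h.eqn j)).2.2
    refine h4.trans (pow_le_pow_left₀ (add_nonneg (N_nonneg _ _) (N_nonneg _ _)) (h3 j hj) 2)

theorem ASeq.chain (ips : ∀ f h, ip f h = ip h f) (ip0 : ∀ f, 0 ≤ ip f f) (en0 : ∀ f, 0 ≤ en f f)
    (hL : ∀ f h, ip (L f) h = -en f h) {C : ℝ} (hC : 0 ≤ C)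
    (hH : ∀ f r, H f r ^ 2 ≤ C * (ip f f + ip (L f) (L f)) * ip r r)
    {ρ : ℝ} {f₀ : V} {u r : ℕ → V} (h : ASeq ip L (fun j => (2 : ℝ) ^ j) ρ f₀ u r) {K : ℕ} {R η : ℝ}
    (hR : N ip f₀ + (K + 1) * ρ ≤ R) (h1 : R * ρ ≤ η) (h2 : ρ * ρ ≤ η)
    (h3 : Real.sqrt (2 * C) * (R * ρ) ≤ η) : Chain ip H L K η u r := by
  have hσ : ∀ j : ℕ, (1 : ℝ) ≤ 2 ^ j := fun j => one_le_pow₀ one_le_two
  have hρ : 0 ≤ ρ := (N_nonneg _ _).trans (h.small 0)
  obtain ⟨b1, b2, b3⟩ := h.bd ips ip0 en0 hL hσ hR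
  have hR0 : 0 ≤ R := (N_nonneg _ _).trans (b1 0 (Nat.zero_le _))
  have b4 : ∀ j, j ≤ K → N ip ((2 : ℝ) ^ j • L (u (j + 1))) ≤ R := by
    intro j hj
    rw [N_smul, abs_of_pos (by positivity)]
    have h4 := (step_bd ips ip0 en0 hL (one_pos.trans_le (hσ j)) (h.eqn j)).2.1
    have h5 := h.small j
    have h6 : N ip (u j) + ρ ≤ R := by
      have h7 : ∀ j : ℕ, N ip (u j) ≤ N ip f₀ + j * ρ := by
        intro j
        induction j with
        | zero => rw [h.zero]; simp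
        | succ j ih =>
          have h2 := (step_bd ips ip0 en0 hL (one_pos.trans_le (hσ j)) (h.eqn j)).1
          have h3 := h.small j
          push_cast
          linarith
      have h8 := h7 j
      have h9 : ((j : ℝ) + 1) * ρ ≤ (K + 1) * ρ := by
        refine mul_le_mul_of_nonneg_right ?_ hρ
        have : (j : ℝ) ≤ K := by exact_mod_cast hj
        linarith
      linarith
    linarith
  refine ⟨fun j _ => h.eqn j, fun j hj => ?_, fun j hj => ?_, fun j hj => ?_, fun j hj i hi => ?_⟩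
  · refine (abs_le ips ip0 _ _).trans (le_trans ?_ h1)
    exact mul_le_mul (b1 _ (by omega)) (h.small j) (N_nonneg _ _) hR0
  · refine (abs_le ips ip0 _ _).trans (le_trans ?_ h1)
    exact mul_le_mul (b4 j hj) (h.small j) (N_nonneg _ _) hR0
  · rw [← N_sq ip0]
    refine le_trans ?_ h2
    rw [pow_two]
    exact mul_le_mul (h.small j) (h.small j) (N_nonneg _ _) hρ
  · have h5 := hH (u (i + 1)) (r j)
    refine le_trans ?_ h3
    have h6 : 0 ≤ Real.sqrt (2 * C) * (R * ρ) := by positivity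
    refine abs_le_of_sq_le_sq' ?_ h6 |> fun h => abs_le.2 h
    refine h5.trans ?_
    have e1 : ip (u (i + 1)) (u (i + 1)) ≤ R ^ 2 := by
      rw [← N_sq ip0]
      exact pow_le_pow_left₀ (N_nonneg _ _) (b1 _ (by omega)) 2
    have e2 : ip (L (u (i + 1))) (L (u (i + 1))) ≤ R ^ 2 := by
      rw [← N_sq ip0]
      exact pow_le_pow_left₀ (N_nonneg _ _) (b2 i hi) 2
    have e3 : ip (r j) (r j) ≤ ρ ^ 2 := by
      rw [← N_sq ip0]
      exact pow_le_pow_left₀ (N_nonneg _ _) (h.small j) 2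
    rw [mul_pow, Real.sq_sqrt (by positivity), mul_pow]
    calc _ ≤ C * (2 * R ^ 2) * ρ ^ 2 := by
          refine mul_le_mul (mul_le_mul_of_nonneg_left (by linarith) hC) e3 (ip0 _) (by positivity)
      _ = _ := by ring

/-- the reversed chain -/
theorem reverse (ips : ∀ f h, ip f h = ip h f) (ip0 : ∀ f, 0 ≤ ip f f)
    (ens : ∀ f h, en f h = en h f) (en0 : ∀ f, 0 ≤ en f f)
    (hL : ∀ f h, ip (L f) h = -en f h) {ρ : ℝ} {f₀ : V} {u r b s : ℕ → V} {K : ℕ} {R : ℝ}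
    (h : ASeq ip L (fun j => (2 : ℝ) ^ j) ρ f₀ u r)
    (h' : ASeq ip L (fun i => (2 : ℝ) ^ (K - 1 - i)) ρ (u K) b s)
    (hR : N ip f₀ + (2 * K + 2) * ρ ≤ R) :
    ip (u K) (u K) ≤ ip (b K) f₀ + 2 * K * (R * ρ) ∧ N ip (b K) ≤ R ∧
      (2 : ℝ) ^ K * en (b K) (b K) ≤ R ^ 2 + (2 : ℝ) ^ K * (2 * K * (R * ρ)) + en f₀ f₀ := by
  have hσ : ∀ j : ℕ, (1 : ℝ) ≤ 2 ^ j := fun j => one_le_pow₀ one_le_two
  have hρ : 0 ≤ ρ := (N_nonneg _ _).trans (h.small 0)
  have hKρ : 0 ≤ (K : ℝ) * ρ := by positivity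
  obtain ⟨b1, b2, b3⟩ := h.bd ips ip0 en0 hL hσ (K := K) (R := N ip f₀ + (K + 1) * ρ) le_rfl
  obtain ⟨c1, c2, c3⟩ := h'.bd ips ip0 en0 hL (fun i => hσ _) (K := K) (R := R) (by
    have := b1 K (by omega)
    linarith)
  have hR0 : 0 ≤ R := (N_nonneg _ _).trans (c1 0 (Nat.zero_le _))
  have b1' : ∀ j, j ≤ K + 1 → N ip (u j) ≤ R := fun j hj => (b1 j hj).trans (by linarith)
  have hLs : ∀ f h, ip f (L h) = ip (L f) h := fun f h => by
    rw [ips, hL, hL, ens]
  refine ⟨?_, c1 K (by omega), ?_⟩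
  · have key : ∀ i, i ≤ K → ip (u K) (u K) ≤ ip (b i) (u (K - i)) + 2 * i * (R * ρ) := by
      intro i
      induction i with
      | zero => intro _; rw [h'.zero]; simp
      | succ i ih =>
        intro hi
        have h1 := ih (by omega)
        have h2 : b i = b (i + 1) - (2 : ℝ) ^ (K - 1 - i) • L (b (i + 1)) - s i := by
          rw [← h'.eqn i]; abel
        have hj : K - i = K - 1 - i + 1 := by omega
        have hj' : K - (i + 1) = K - 1 - i := by omega
        have h3 : ip (b i) (u (K - i)) = ip (b (i + 1)) (u (K - (i + 1))) +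
            ip (b (i + 1)) (r (K - 1 - i)) - ip (s i) (u (K - i)) := by
          conv_lhs => rw [h2]
          rw [map_sub, map_sub, LinearMap.sub_apply, LinearMap.sub_apply, map_smul,
            LinearMap.smul_apply, ← hLs, ← map_smul, ← map_sub, hj', hj,
            ← map_add (ip (b (i + 1))), ← h.eqn (K - 1 - i)]
        have h4 : |ip (b (i + 1)) (r (K - 1 - i))| ≤ R * ρ :=
          (abs_le ips ip0 _ _).trans (mul_le_mul (c1 _ (by omega)) (h.small _) (N_nonneg _ _) hR0)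
        have h5 : |ip (s i) (u (K - i))| ≤ R * ρ := by
          rw [ips]
          exact (abs_le ips ip0 _ _).trans
            (mul_le_mul (b1' _ (by omega)) (h'.small _) (N_nonneg _ _) hR0)
        have h6 := abs_le.1 h4
        have h7 := abs_le.1 h5
        push_cast
        linarith [h6.1, h6.2, h7.1, h7.2]
    have := key K le_rfl
    rwa [Nat.sub_self, h.zero] at this
  · have key : ∀ i, i ≤ K → en (b i) (b i) ≤ en (u K) (u K) + 2 * i * (R * ρ) := by
      intro i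
      induction i with
      | zero => intro _; rw [h'.zero]; simp
      | succ i ih =>
        intro hi
        have h1 := ih (by omega)
        set d := b i - b (i + 1) with hd
        have h2 : d = -((2 : ℝ) ^ (K - 1 - i) • L (b (i + 1))) - s i := by
          have h3 : b i = b (i + 1) - (2 : ℝ) ^ (K - 1 - i) • L (b (i + 1)) - s i := by
            rw [← h'.eqn i]; abel
          rw [hd]
          conv_lhs => rw [h3]
          abel
        have h3 : en (b i) (b i) = en (b (i + 1)) (b (i + 1)) + 2 * en (b (i + 1)) d + en d d := by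
          have h4 : b i = b (i + 1) + d := by rw [hd]; abel
          conv_lhs => rw [h4]
          exact form_add en ens _ _
        have h4 : en (b (i + 1)) d = (2 : ℝ) ^ (K - 1 - i) * ip (L (b (i + 1))) (L (b (i + 1))) +
            ip (L (b (i + 1))) (s i) := by
          have h5 : en (b (i + 1)) d = -ip (L (b (i + 1))) d := by rw [hL]; ring
          rw [h5, h2]
          simp only [map_sub, map_neg, map_smul, smul_eq_mul]
          ring
        have h5 : |ip (L (b (i + 1))) (s i)| ≤ R * ρ :=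
          (abs_le ips ip0 _ _).trans (mul_le_mul (c2 _ (by omega)) (h'.small _) (N_nonneg _ _) hR0)
        have h6 := abs_le.1 h5
        have h7 : 0 ≤ (2 : ℝ) ^ (K - 1 - i) * ip (L (b (i + 1))) (L (b (i + 1))) :=
          mul_nonneg (by positivity) (ip0 _)
        have h8 := en0 d
        push_cast
        linarith [h6.1, h6.2]
    have h1 := key K le_rfl
    have h2 : (2 : ℝ) ^ K * en (u K) (u K) ≤ R ^ 2 + en f₀ f₀ := by
      rcases Nat.eq_zero_or_pos K with hK | hK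
      · subst hK
        rw [h.zero]
        simp only [pow_zero, one_mul]
        have := sq_nonneg R
        linarith
      · have h3 := b3 (K - 1) (by omega)
        rw [Nat.sub_add_cancel hK] at h3
        have h4 : (2 : ℝ) * 2 ^ (K - 1) = 2 ^ K := by
          rw [← pow_succ', Nat.sub_add_cancel hK]
        rw [h4] at h3
        have h5 : (N ip f₀ + (K + 1) * ρ) ^ 2 ≤ R ^ 2 := by
          refine pow_le_pow_left₀ ?_ (by linarith) 2
          have := N_nonneg ip f₀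
          positivity
        have := en0 f₀
        linarith
    have h3 : (2 : ℝ) ^ K * en (b K) (b K) ≤
        (2 : ℝ) ^ K * (en (u K) (u K) + 2 * K * (R * ρ)) :=
      mul_le_mul_of_nonneg_left h1 (by positivity)
    rw [mul_add] at h3
    linarith

end

/-- **A1.** -/
theorem a1 (N' H : ℝ → V →ₗ[ℝ] V →ₗ[ℝ] ℝ) (N0 V0 : V →ₗ[ℝ] V →ₗ[ℝ] ℝ) (L : ℝ → V →ₗ[ℝ] V)
    (M : ℝ → V → ℝ) (G : V → ℝ)
    (N_symm : ∀ t, 1 ≤ t → ∀ f h, N' t f h = N' t h f)
    (H_symm : ∀ t, 1 ≤ t → ∀ f h, H t f h = H t h f)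
    (N0_symm : ∀ f h, N0 f h = N0 h f) (V0_symm : ∀ f h, V0 f h = V0 h f)
    (N0_nonneg : ∀ f, 0 ≤ N0 f f) (V0_nonneg : ∀ f, 0 ≤ V0 f f)
    (H_nonneg : ∀ t, 1 ≤ t → ∀ f, 0 ≤ H t f f)
    (N_ge : ∀ t, 1 ≤ t → ∀ f, N0 f f ≤ N' t f f)
    (N_lim : ∀ f, Tendsto (fun t => N' t f f) atTop (𝓝 (N0 f f)))
    (H_le : ∀ t, 1 ≤ t → ∀ f, H t f f ≤ G f)
    (hL : ∀ t, 1 ≤ t → ∀ f h, N' t (L t f) h = -(V0 f h + H t f h / t))
    (M_nonneg : ∀ t, 1 ≤ t → ∀ f, 0 ≤ M t f)
    (M_le : ∀ t, 1 ≤ t → ∀ f, M t f ≤ -H t (L t f) f)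
    (H_bd : ∀ t, 1 ≤ t → ∃ C : ℝ, ∀ f r, H t f r ^ 2 ≤ C * N' t (L t f) (L t f) * N' t r r)
    (dense : ∀ t, 1 ≤ t → ∃ l₀ : ℝ, 0 < l₀ ∧ ∀ l : ℝ, l₀ ≤ l → ∀ f, ∀ δ : ℝ, 0 < δ →
      ∃ v, N' t (l • v - L t v - f) (l • v - L t v - f) < δ)
    (escape : ∀ b : ℕ → V, (∃ B : ℝ, ∀ k, N0 (b k) (b k) ≤ B) →
      Tendsto (fun k => V0 (b k) (b k)) atTop (𝓝 0) → ∀ f, Tendsto (fun k => N0 (b k) f) atTop (𝓝 0))
    (folner : ∀ ε : ℝ, 0 < ε → ∃ f, G f + V0 f f < ε * N0 f f) :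
    ∀ ε : ℝ, 0 < ε → ∃ t : ℝ, 1 ≤ t ∧ 1 / ε ≤ t ∧ ∃ d, 0 < V0 d d ∧ M t d ≤ ε * V0 d d ∧
      H t d d * N' t (L t d) (L t d) ≤ ε * (V0 d d) ^ 2 ∧ H t d d ≤ ε * (t * V0 d d) := by
  intro ε hε
  have N_nonneg' : ∀ t, 1 ≤ t → ∀ f, 0 ≤ N' t f f := fun t ht f => (N0_nonneg f).trans (N_ge t ht f)
  -- the energy forms
  set en : ℝ → V →ₗ[ℝ] V →ₗ[ℝ] ℝ := fun t => V0 + t⁻¹ • H t with hen
  have en_eq : ∀ t f h, en t f h = V0 f h + H t f h / t := by
    intro t f h
    rw [hen]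
    simp only [LinearMap.add_apply, LinearMap.smul_apply, smul_eq_mul]
    rw [div_eq_inv_mul]
  have en_symm : ∀ t, 1 ≤ t → ∀ f h, en t f h = en t h f := fun t ht f h => by
    rw [en_eq, en_eq, V0_symm, H_symm t ht]
  have en_nonneg : ∀ t, 1 ≤ t → ∀ f, 0 ≤ en t f f := fun t ht f => by
    rw [en_eq]
    exact add_nonneg (V0_nonneg f) (div_nonneg (H_nonneg t ht f) (by linarith))
  have hL' : ∀ t, 1 ≤ t → ∀ f h, N' t (L t f) h = -en t f h := fun t ht f h => by
    rw [en_eq, hL t ht]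
  have hD : ∀ t, 1 ≤ t → ∀ μ : ℝ, 0 < μ → D (N' t) (L t) μ := by
    intro t ht μ hμ
    obtain ⟨l₀, hl₀, h⟩ := dense t ht
    exact D_step (N_symm t ht) (N_nonneg' t ht) (en_nonneg t ht) (hL' t ht) hμ (le_max_left μ l₀)
      (D_of (h _ (le_max_right μ l₀)))
  -- the constant
  set ε' : ℝ := min 1 (ε / 16000000) with hε'
  have hε'0 : 0 < ε' := lt_min one_pos (by positivity)
  have hε'1 : ε' ≤ 1 := min_le_left _ _
  have hε'2 : ε' ≤ ε / 16000000 := min_le_right _ _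
  obtain ⟨f₀, hf₀⟩ := folner ε' hε'0
  have hG0 : 0 ≤ G f₀ := (H_nonneg 1 le_rfl f₀).trans (H_le 1 le_rfl f₀)
  have hN00 : 0 < N0 f₀ f₀ := by
    have h1 : 0 < ε' * N0 f₀ f₀ := lt_of_le_of_lt (add_nonneg hG0 (V0_nonneg f₀)) hf₀
    exact (mul_pos_iff_of_pos_left hε'0).1 h1
  -- Claim A
  have claim : ∃ K : ℕ, ∀ T : ℝ, ∃ t, T ≤ t ∧ 1 ≤ t ∧ ∀ η : ℝ, 0 < η → ∃ u r : ℕ → V,
      Chain (N' t) (H t) (L t) K η u r ∧ u 0 = f₀ ∧ N' t (u K) (u K) ≤ N' t f₀ f₀ / 20 := by
    by_contra hcon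
    push Not at hcon
    choose T hT using hcon
    obtain ⟨t₁, ht₁⟩ := eventually_atTop.1
      ((N_lim f₀).eventually_lt_const (show N0 f₀ f₀ < N0 f₀ f₀ + 1 by linarith))
    set t : ℕ → ℝ := fun K => max (T K) (max ((K : ℝ) + 1) t₁) with ht
    have ht1 : ∀ K, 1 ≤ t K := fun K => by
      have h1 : (K : ℝ) + 1 ≤ t K := (le_max_left _ _).trans (le_max_right _ _)
      have h2 : (0 : ℝ) ≤ K := Nat.cast_nonneg K
      linarith
    have htK : ∀ K : ℕ, (K : ℝ) ≤ t K := fun K => by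
      have h1 : (K : ℝ) + 1 ≤ t K := (le_max_left _ _).trans (le_max_right _ _)
      linarith
    have htT : ∀ K, T K ≤ t K := fun K => le_max_left _ _
    have htN : ∀ K, N' (t K) f₀ f₀ < N0 f₀ f₀ + 1 := fun K =>
      ht₁ _ ((le_max_right _ _).trans (le_max_right _ _))
    have htlim : Tendsto t atTop atTop :=
      tendsto_atTop_mono htK tendsto_natCast_atTop_atTop
    set R : ℝ := Real.sqrt (N0 f₀ f₀ + 1) + 1 with hR
    have hR0 : 0 < R := by positivity
    -- for every `K` an element `b`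
    have hb : ∀ K : ℕ, ∃ b : V, N0 f₀ f₀ / 20 ≤ N' (t K) b f₀ + 1 / ((K : ℝ) + 1) ∧
        N (N' (t K)) b ≤ R ∧
        V0 b b ≤ (R ^ 2 + N0 f₀ f₀) / 2 ^ K + 1 / ((K : ℝ) + 1) := by
      intro K
      obtain ⟨η, hη, hK⟩ := hT K (t K) (htT K) (ht1 K)
      obtain ⟨C₀, hC₀⟩ := H_bd (t K) (ht1 K)
      set C : ℝ := max C₀ 0 with hC
      have hC0 : 0 ≤ C := le_max_right _ _
      have hHC : ∀ f r, H (t K) f r ^ 2 ≤
          C * (N' (t K) f f + N' (t K) (L (t K) f) (L (t K) f)) * N' (t K) r r := by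
        intro f r
        refine (hC₀ f r).trans ?_
        refine mul_le_mul_of_nonneg_right ?_ (N_nonneg' _ (ht1 K) r)
        refine mul_le_mul (le_max_left _ _) ?_ (N_nonneg' _ (ht1 K) _) hC0
        linarith [N_nonneg' _ (ht1 K) f]
      -- choice of `ρ`
      obtain ⟨ρ, hρ0, hρ1, hρ2, hρ3, hρ4⟩ : ∃ ρ : ℝ, 0 < ρ ∧ (2 * K + 2) * ρ ≤ 1 ∧ R * ρ ≤ η ∧
          Real.sqrt (2 * C) * (R * ρ) ≤ η ∧ 2 * K * (R * ρ) ≤ 1 / ((K : ℝ) + 1) := by
        have e0 : (0 : ℝ) ≤ K := Nat.cast_nonneg K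
        have e1 : 0 < (2 * (K : ℝ) + 2) := by positivity
        have e2 : 0 < (Real.sqrt (2 * C) + 1) * R := by positivity
        have e3 : 0 < (2 * (K : ℝ) + 1) * R * (K + 1) := by positivity
        refine ⟨min (1 / (2 * K + 2)) (min (η / ((Real.sqrt (2 * C) + 1) * R))
          (1 / ((2 * K + 1) * R * (K + 1)))), ?_, ?_, ?_, ?_, ?_⟩
        · refine lt_min (by positivity) (lt_min (by positivity) (by positivity))
        · calc _ ≤ (2 * (K : ℝ) + 2) * (1 / (2 * K + 2)) :=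
                mul_le_mul_of_nonneg_left (min_le_left _ _) e1.le
            _ = 1 := by field_simp
        · have h1 : min (1 / (2 * (K : ℝ) + 2)) (min (η / ((Real.sqrt (2 * C) + 1) * R))
              (1 / ((2 * K + 1) * R * (K + 1)))) ≤ η / ((Real.sqrt (2 * C) + 1) * R) :=
            (min_le_right _ _).trans (min_le_left _ _)
          refine (mul_le_mul_of_nonneg_left h1 hR0.le).trans ?_
          have h2 : R * (η / ((Real.sqrt (2 * C) + 1) * R)) = η / (Real.sqrt (2 * C) + 1) := by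
            field_simp
          rw [h2]
          refine div_le_self hη.le ?_
          have := Real.sqrt_nonneg (2 * C)
          linarith
        · have h1 : min (1 / (2 * (K : ℝ) + 2)) (min (η / ((Real.sqrt (2 * C) + 1) * R))
              (1 / ((2 * K + 1) * R * (K + 1)))) ≤ η / ((Real.sqrt (2 * C) + 1) * R) :=
            (min_le_right _ _).trans (min_le_left _ _)
          refine (mul_le_mul_of_nonneg_left (mul_le_mul_of_nonneg_left h1 hR0.le)
            (Real.sqrt_nonneg (2 * C))).trans ?_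
          have h2 : Real.sqrt (2 * C) * (R * (η / ((Real.sqrt (2 * C) + 1) * R))) =
              η * (Real.sqrt (2 * C) / (Real.sqrt (2 * C) + 1)) := by
            field_simp
          rw [h2]
          have h3 : Real.sqrt (2 * C) / (Real.sqrt (2 * C) + 1) ≤ 1 := by
            rw [div_le_one (by positivity)]
            linarith
          calc _ ≤ η * 1 := mul_le_mul_of_nonneg_left h3 hη.le
            _ = η := mul_one _
        · have h1 : min (1 / (2 * (K : ℝ) + 2)) (min (η / ((Real.sqrt (2 * C) + 1) * R))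
              (1 / ((2 * K + 1) * R * (K + 1)))) ≤ 1 / ((2 * K + 1) * R * (K + 1)) :=
            (min_le_right _ _).trans (min_le_right _ _)
          refine (mul_le_mul_of_nonneg_left (mul_le_mul_of_nonneg_left h1 hR0.le)
            (by positivity)).trans ?_
          have h2 : 2 * (K : ℝ) * (R * (1 / ((2 * K + 1) * R * (K + 1)))) =
              (2 * K / (2 * K + 1)) * (1 / (K + 1)) := by
            field_simp
          rw [h2]
          have h3 : 2 * (K : ℝ) / (2 * K + 1) ≤ 1 := by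
            rw [div_le_one (by positivity)]
            linarith
          calc _ ≤ 1 * (1 / ((K : ℝ) + 1)) := mul_le_mul_of_nonneg_right h3 (by positivity)
            _ = _ := one_mul _
      have hNf : N (N' (t K)) f₀ + (2 * K + 2) * ρ ≤ R := by
        have h1 : N (N' (t K)) f₀ ≤ Real.sqrt (N0 f₀ f₀ + 1) := Real.sqrt_le_sqrt (htN K).le
        linarith
      have hKρ : 0 ≤ (K : ℝ) * ρ := by positivity
      have hρR : ρ ≤ R := by
        have h1 : 1 ≤ R := by
          have := Real.sqrt_nonneg (N0 f₀ f₀ + 1)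
          linarith
        have h2 : 2 * ρ ≤ 1 := by linarith
        linarith
      obtain ⟨u, r, hur⟩ := exists_aseq (hD (t K) (ht1 K)) (σ := fun j => (2 : ℝ) ^ j)
        (fun j => by positivity) f₀ hρ0
      obtain ⟨b, s, hbs⟩ := exists_aseq (hD (t K) (ht1 K)) (σ := fun i => (2 : ℝ) ^ (K - 1 - i))
        (fun j => by positivity) (u K) hρ0
      have hch : Chain (N' (t K)) (H (t K)) (L (t K)) K η u r :=
        hur.chain (N_symm _ (ht1 K)) (N_nonneg' _ (ht1 K)) (en_nonneg _ (ht1 K)) (hL' _ (ht1 K)) hC0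
          hHC (R := R) (by linarith) hρ2 ((mul_le_mul_of_nonneg_right hρR hρ0.le).trans hρ2) hρ3
      have h1 := hK u r hch hur.zero
      obtain ⟨h2, h3, h4⟩ := reverse (N_symm _ (ht1 K)) (N_nonneg' _ (ht1 K)) (en_symm _ (ht1 K))
        (en_nonneg _ (ht1 K)) (hL' _ (ht1 K)) hur hbs hNf
      refine ⟨b K, ?_, h3, ?_⟩
      · have h5 := N_ge (t K) (ht1 K) f₀
        linarith
      · have h5 : V0 (b K) (b K) ≤ en (t K) (b K) (b K) := by
          rw [en_eq]
          have := div_nonneg (H_nonneg (t K) (ht1 K) (b K)) (zero_le_one.trans (ht1 K))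
          linarith
        have h6 : en (t K) f₀ f₀ ≤ N0 f₀ f₀ := by
          rw [en_eq]
          have e1 : H (t K) f₀ f₀ / t K ≤ H (t K) f₀ f₀ :=
            div_le_self (H_nonneg _ (ht1 K) _) (ht1 K)
          have e2 := H_le (t K) (ht1 K) f₀
          have e3 : ε' * N0 f₀ f₀ ≤ 1 * N0 f₀ f₀ := mul_le_mul_of_nonneg_right hε'1 hN00.le
          linarith
        have h7 : (0 : ℝ) < 2 ^ K := by positivity
        have h8 : en (t K) (b K) (b K) ≤ (R ^ 2 + N0 f₀ f₀) / 2 ^ K + 2 * K * (R * ρ) := by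
          rw [← sub_le_iff_le_add, le_div_iff₀ h7]
          linarith
        linarith
    choose b hb1 hb2 hb3 using hb
    have hlim1 : Tendsto (fun K : ℕ => 1 / ((K : ℝ) + 1)) atTop (𝓝 0) :=
      tendsto_one_div_add_atTop_nhds_zero_nat
    have hV0 : Tendsto (fun K => V0 (b K) (b K)) atTop (𝓝 0) := by
      refine squeeze_zero (fun K => V0_nonneg _) hb3 ?_
      have h1 : Tendsto (fun K : ℕ => (R ^ 2 + N0 f₀ f₀) / 2 ^ K) atTop (𝓝 0) := by
        have h2 : Tendsto (fun K : ℕ => (2 : ℝ) ^ K) atTop atTop :=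
          tendsto_pow_atTop_atTop_of_one_lt one_lt_two
        exact h2.const_div_atTop _
      simpa using h1.add hlim1
    have hB : ∀ K, N0 (b K) (b K) ≤ R ^ 2 := by
      intro K
      refine (N_ge (t K) (ht1 K) _).trans ?_
      rw [← N_sq (N_nonneg' _ (ht1 K))]
      exact pow_le_pow_left₀ (N_nonneg _ _) (hb2 K) 2
    have hesc := escape b ⟨R ^ 2, hB⟩ hV0 f₀
    -- the difference form
    have hdiff : ∀ K, (N' (t K) (b K) f₀ - N0 (b K) f₀) ^ 2 ≤
        R ^ 2 * (N' (t K) f₀ f₀ - N0 f₀ f₀) := by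
      intro K
      have h1 := cs (B := N' (t K) - N0) (fun f h => by
        rw [LinearMap.sub_apply, LinearMap.sub_apply, LinearMap.sub_apply, LinearMap.sub_apply,
          N_symm _ (ht1 K), N0_symm]) (fun f => by
        rw [LinearMap.sub_apply, LinearMap.sub_apply]
        linarith [N_ge _ (ht1 K) f]) (b K) f₀
      simp only [LinearMap.sub_apply] at h1
      refine h1.trans (mul_le_mul_of_nonneg_right ?_ (by linarith [N_ge _ (ht1 K) f₀]))
      have h2 : N' (t K) (b K) (b K) ≤ R ^ 2 := by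
        rw [← N_sq (N_nonneg' _ (ht1 K))]
        exact pow_le_pow_left₀ (N_nonneg _ _) (hb2 K) 2
      linarith [N0_nonneg (b K)]
    have hdl : Tendsto (fun K => N' (t K) (b K) f₀ - N0 (b K) f₀) atTop (𝓝 0) := by
      have h1 : Tendsto (fun K => (N' (t K) (b K) f₀ - N0 (b K) f₀) ^ 2) atTop (𝓝 0) := by
        refine squeeze_zero (fun K => sq_nonneg _) hdiff ?_
        have h2 : Tendsto (fun K => N' (t K) f₀ f₀ - N0 f₀ f₀) atTop (𝓝 0) := by
          have := ((N_lim f₀).comp htlim).sub_const (N0 f₀ f₀)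
          rwa [sub_self] at this
        simpa using h2.const_mul (R ^ 2)
      have h3 := (Real.continuous_sqrt.tendsto 0).comp h1
      rw [Real.sqrt_zero] at h3
      refine (tendsto_zero_iff_abs_tendsto_zero _).2 ?_
      refine h3.congr fun K => ?_
      simp only [Function.comp_apply]
      rw [Real.sqrt_sq_eq_abs]
    have hfin : Tendsto (fun K : ℕ => N' (t K) (b K) f₀ + 1 / ((K : ℝ) + 1)) atTop (𝓝 0) := by
      have := (hdl.add hesc).add hlim1
      simpa using this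
    have := ge_of_tendsto' hfin hb1
    linarith
  -- conclusion
  obtain ⟨K, hK⟩ := claim
  obtain ⟨t, htT, ht1, hη⟩ := hK (max (1 / ε) (max (8000 * 2 ^ K / ε) (8000 * 2 ^ K)))
  have htε : 1 / ε ≤ t := (le_max_left _ _).trans htT
  have htK : 8000 * 2 ^ K / ε ≤ t := (le_max_left _ _).trans ((le_max_right _ _).trans htT)
  have htK' : 8000 * 2 ^ K ≤ t := (le_max_right _ _).trans ((le_max_right _ _).trans htT)
  have hNt0 : 0 < N' t f₀ f₀ := hN00.trans_le (N_ge t ht1 f₀)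
  have hK1 : (0 : ℝ) < (K : ℝ) + 1 := by positivity
  obtain ⟨u, r, hch, hu0, huK⟩ := hη (ε' * N' t f₀ f₀ / (800 * (K + 1))) (by positivity)
  have hH0 : H t f₀ f₀ ≤ ε' * N' t f₀ f₀ := by
    have h1 := H_le t ht1 f₀
    have h2 := V0_nonneg f₀
    have h3 := mul_le_mul_of_nonneg_left (N_ge t ht1 f₀) hε'0.le
    linarith
  have hen0 : en t f₀ f₀ ≤ ε' * N' t f₀ f₀ := by
    rw [en_eq]
    have e1 : H t f₀ f₀ / t ≤ H t f₀ f₀ := div_le_self (H_nonneg _ ht1 _) ht1
    have h1 := H_le t ht1 f₀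
    have h3 := mul_le_mul_of_nonneg_left (N_ge t ht1 f₀) hε'0.le
    linarith
  obtain ⟨j, hj1, hjK, hj⟩ := geoE (N' t) (en t) (H t) (L t) (M t) (N_symm t ht1) (N_nonneg' t ht1)
    (en_symm t ht1) (en_nonneg t ht1) (H_symm t ht1) (H_nonneg t ht1) (hL' t ht1) (M_nonneg t ht1)
    (M_le t ht1) K u r _ hch ε' hε'0 hε'1 (by rw [hu0]; exact hNt0)
    (by rw [hu0]; apply le_of_eq; field_simp) (by rw [hu0]; exact huK) (by rw [hu0]; exact hen0)
    (by rw [hu0]; exact hH0)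
  rw [hu0] at hj
  set d := u j - u (j + 1) with hd
  set s : ℝ := (2 : ℝ) ^ j with hs
  have hs0 : 0 < s := by positivity
  have hs1 : 1 ≤ s := one_le_pow₀ one_le_two
  have hsK : s ≤ 2 ^ K := pow_le_pow_right₀ one_le_two hjK
  have a1 := N_nonneg' t ht1 d
  have a2 : 0 ≤ s ^ 2 * N' t (L t d) (L t d) := mul_nonneg (sq_nonneg _) (N_nonneg' t ht1 _)
  have a3 := H_nonneg t ht1 d
  have a4 : 0 ≤ s * M t d := mul_nonneg hs0.le (M_nonneg t ht1 d)
  have a5 : 0 < N' t f₀ f₀ / (K + 1) := by positivity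
  have a6 : 0 ≤ ε'⁻¹ * (H t d d + s * M t d) :=
    mul_nonneg (inv_nonneg.2 hε'0.le) (add_nonneg a3 a4)
  have a7 : 0 < s * en t d d := by linarith
  have a8 : 0 < en t d d := (mul_pos_iff_of_pos_left hs0).1 a7
  have a9 : H t d d + s * M t d ≤ 2000 * ε' * (s * en t d d) := by
    have h10 : ε'⁻¹ * (H t d d + s * M t d) ≤ 2000 * (s * en t d d) := by linarith
    have h11 := mul_le_mul_of_nonneg_left h10 hε'0.le
    rw [← mul_assoc, mul_inv_cancel₀ hε'0.ne', one_mul] at h11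
    linarith
  have aH : H t d d ≤ 2000 * ε' * (s * en t d d) := by linarith
  have aM : M t d ≤ 2000 * ε' * en t d d := by
    have h1 : s * M t d ≤ s * (2000 * ε' * en t d d) := by
      calc s * M t d ≤ 2000 * ε' * (s * en t d d) := by linarith
        _ = _ := by ring
    exact le_of_mul_le_mul_left h1 hs0
  have aL : s ^ 2 * N' t (L t d) (L t d) ≤ 2000 * (s * en t d d) := by linarith
  have aHL : H t d d * N' t (L t d) (L t d) ≤ 4000000 * ε' * (en t d d) ^ 2 := by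
    have h1 : s ^ 2 * (H t d d * N' t (L t d) (L t d)) ≤
        s ^ 2 * (4000000 * ε' * (en t d d) ^ 2) := by
      calc s ^ 2 * (H t d d * N' t (L t d) (L t d)) =
            H t d d * (s ^ 2 * N' t (L t d) (L t d)) := by ring
        _ ≤ (2000 * ε' * (s * en t d d)) * (2000 * (s * en t d d)) :=
          mul_le_mul aH aL a2 (by positivity)
        _ = _ := by ring
    exact le_of_mul_le_mul_left h1 (by positivity)
  -- `H d d / t ≤ (ε / 4) en d d`, `en ≤ 2 V0`
  have ht0 : 0 < t := by linarith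
  have h2K : (0 : ℝ) < 2 ^ K := by positivity
  have aH' : H t d d ≤ 2000 * (s * en t d d) := by
    refine aH.trans ?_
    have := mul_le_mul_of_nonneg_right hε'1 a7.le
    linarith
  have aH1 : H t d d ≤ t * (ε / 4 * en t d d) := by
    have h1 : s * 8000 ≤ t * ε := by
      rw [div_le_iff₀ hε] at htK
      have := mul_le_mul_of_nonneg_right hsK (show (0 : ℝ) ≤ 8000 by norm_num)
      linarith
    have h3 := mul_le_mul_of_nonneg_right h1 a8.le
    calc H t d d ≤ 2000 * (s * en t d d) := aH'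
      _ = (s * 8000 * en t d d) / 4 := by ring
      _ ≤ (t * ε * en t d d) / 4 := by linarith
      _ = _ := by ring
  have aH2 : H t d d / t ≤ 1 / 2 * en t d d := by
    rw [div_le_iff₀ ht0]
    have h1 : s * 8000 ≤ t := by
      have := mul_le_mul_of_nonneg_right hsK (show (0 : ℝ) ≤ 8000 by norm_num)
      linarith
    have h3 := mul_le_mul_of_nonneg_right h1 a8.le
    have h4 : 0 ≤ t * en t d d := by positivity
    linarith
  have hV : en t d d ≤ 2 * V0 d d := by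
    have h1 := en_eq t d d
    linarith
  have hV0 : 0 < V0 d d := by linarith
  have hε2 : 16000000 * ε' ≤ ε := by
    have := hε'2
    rw [le_div_iff₀ (by norm_num)] at this
    linarith
  refine ⟨t, ht1, htε, d, hV0, ?_, ?_, ?_⟩
  · have h1 : 2000 * ε' * en t d d ≤ 2000 * ε' * (2 * V0 d d) :=
      mul_le_mul_of_nonneg_left hV (by positivity)
    have h2 : 4000 * ε' * V0 d d ≤ ε * V0 d d :=
      mul_le_mul_of_nonneg_right (by linarith) hV0.le
    linarith
  · have h1 : (en t d d) ^ 2 ≤ (2 * V0 d d) ^ 2 := pow_le_pow_left₀ a8.le hV 2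
    have h2 : 4000000 * ε' * (en t d d) ^ 2 ≤ 4000000 * ε' * (2 * V0 d d) ^ 2 :=
      mul_le_mul_of_nonneg_left h1 (by positivity)
    have h3 : 16000000 * ε' * (V0 d d) ^ 2 ≤ ε * (V0 d d) ^ 2 :=
      mul_le_mul_of_nonneg_right hε2 (sq_nonneg _)
    calc _ ≤ 4000000 * ε' * (2 * V0 d d) ^ 2 := aHL.trans h2
      _ = 16000000 * ε' * (V0 d d) ^ 2 := by ring
      _ ≤ _ := h3
  · have h1 : t * (ε / 4 * en t d d) ≤ t * (ε / 4 * (2 * V0 d d)) := by
      refine mul_le_mul_of_nonneg_left ?_ ht0.le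
      exact mul_le_mul_of_nonneg_left hV (by positivity)
    have h2 : 0 ≤ t * (ε * V0 d d) := by positivity
    calc _ ≤ t * (ε / 4 * (2 * V0 d d)) := aH1.trans h1
      _ = (t * (ε * V0 d d)) / 2 := by ring
      _ ≤ t * (ε * V0 d d) := by linarith
      _ = _ := by ring

end Vale.Agent.P284.H501
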