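import Vale.Agent.P284.H501.ExtL
import Vale.Agent.P272.K.Inv.Chart

/-!
# P284 (helper501), module EXT: the forms `O ∧ μ(Θ, …, Θ)` on the covering
-/

open scoped Manifold ContDiff Topology ENNReal
open Filter MeasureTheory Set

noncomputable section

namespace Vale.Agent.P284.H501

open Vale.Agent.P272.K

section
variable {n q : ℕ} {X E : Type} [TopologicalSpace X] [ChartedSpace (Cm n) X]
  [TopologicalSpace E] {p : E → X} {F : E → Cm q}

theorem ep_map (hp : IsLocalHomeomorph p) {y : E} {e : Chart n X} (he : At e (p y)) :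
    Filter.map (fun y' => e (p y')) (𝓝 y) = 𝓝 (e (p y)) := by
  rw [← e.map_nhds_eq he.2, ← hp.map_nhds_eq y, Filter.map_map]
  rfl

theorem ep_ev (hp : IsLocalHomeomorph p) {y : E} {e : Chart n X} (he : At e (p y))
    {P : Cm n → Prop} : (∀ᶠ y' in 𝓝 y, P (e (p y'))) ↔ ∀ᶠ z in 𝓝 (e (p y)), P z := by
  rw [← ep_map hp he]
  exact Iff.rfl

theorem ep_ex (hp : IsLocalHomeomorph p) {y : E} {e : Chart n X} (he : At e (p y))
    {Q : E → Prop} (h : ∀ᶠ y' in 𝓝 y, Q y') :
    ∀ᶠ z in 𝓝 (e (p y)), ∃ y', e (p y') = z ∧ Q y' := by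
  rw [← ep_map hp he]
  filter_upwards [Filter.image_mem_map h] with z hz
  obtain ⟨y', hy', rfl⟩ := hz
  exact ⟨y', rfl, hy'⟩

theorem ep_at (hp : IsLocalHomeomorph p) {y : E} {e : Chart n X} (he : At e (p y)) :
    ∀ᶠ y' in 𝓝 y, At e (p y') := by
  filter_upwards [(hp.continuous.continuousAt (x := y)).eventually
    (e.open_source.mem_nhds he.2)] with y' hy'
  exact ⟨he.1, hy'⟩

theorem Rep.near (hp : IsLocalHomeomorph p) {y : E} {e : Chart n X} (he : At e (p y))
    {f : Cm n → Cm q} (h : Rep p F y e f) : ∀ᶠ y' in 𝓝 y, Rep p F y' e f := by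
  filter_upwards [(ep_ev hp he).2 h.1.eventually_analyticAt, h.2.eventually_nhds] with y' h1 h2
  exact ⟨h1, h2⟩

theorem Rep.congr (hp : IsLocalHomeomorph p) {y : E} {e : Chart n X} (he : At e (p y))
    {f f' : Cm n → Cm q} (h : Rep p F y e f) (h' : Rep p F y e f') : f =ᶠ[𝓝 (e (p y))] f' := by
  refine (ep_ev hp he).1 ?_
  filter_upwards [h.2, h'.2] with y' h1 h2
  exact h1.symm.trans h2

theorem Rep.fderiv_eq (hp : IsLocalHomeomorph p) {y : E} {e : Chart n X} (he : At e (p y))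
    {f f' : Cm n → Cm q} (h : Rep p F y e f) (h' : Rep p F y e f') :
    fderiv ℂ f (e (p y)) = fderiv ℂ f' (e (p y)) := (Rep.congr hp he h h').fderiv_eq

variable {k : ℕ} {W T : Type} [NormedAddCommGroup W] [NormedSpace ℂ W]
  [NormedAddCommGroup T] [NormedSpace ℂ T]

/-- `g` is the local expression of `O ∧ μ(Θ, …, Θ)` near `y` in the chart `e` -/
def LG (p : E → X) (F : E → Cm q) (S : E → Chart n X → Cm n [⋀^Fin (q + 1)]→L[ℂ] W)
    (μ : ContinuousMultilinearMap ℂ (fun _ : Fin k => W) T) (y : E) (e : Chart n X)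
    (g : Cm n → Cm n [⋀^Fin (q + k)]→L[ℂ] T) : Prop :=
  AnalyticAt ℂ g (e (p y)) ∧ ∀ᶠ y' in 𝓝 y, ∀ f, Rep p F y' e f →
    Function.Surjective (fderiv ℂ f (e (p y'))) → ∀ Θ : Cm n →L[ℂ] W,
    IsW (fderiv ℂ f (e (p y'))) (S y' e) Θ → ∀ ξ,
      g (e (p y')) ξ = gf k (fderiv ℂ f (e (p y'))) Θ μ ξ

variable {S : E → Chart n X → Cm n [⋀^Fin (q + 1)]→L[ℂ] W}
  {μ : ContinuousMultilinearMap ℂ (fun _ : Fin k => W) T}

theorem LG.near [CompleteSpace T] (hp : IsLocalHomeomorph p) {y : E} {e : Chart n X} (he : At e (p y))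
    {g : Cm n → Cm n [⋀^Fin (q + k)]→L[ℂ] T} (h : LG p F S μ y e g) :
    ∀ᶠ y' in 𝓝 y, LG p F S μ y' e g := by
  filter_upwards [(ep_ev hp he).2 h.1.eventually_analyticAt, h.2.eventually_nhds] with y' h1 h2
  exact ⟨h1, h2⟩

/-- two local expressions agree -/
theorem LG.unique (hp : IsLocalHomeomorph p)
    (hF : ∀ y (e : Chart n X), At e (p y) → ∃ f, Rep p F y e f)
    (hs : ∀ y (e : Chart n X) f, At e (p y) → Rep p F y e f →
      ∃ᶠ z in 𝓝 (e (p y)), Function.Surjective (fderiv ℂ f z))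
    (hrel : ∀ y e f, At e (p y) → Rep p F y e f → Function.Surjective (fderiv ℂ f (e (p y))) →
      RelP (fderiv ℂ f (e (p y))) (S y e))
    {y : E} {e : Chart n X} (he : At e (p y)) {g g' : Cm n → Cm n [⋀^Fin (q + k)]→L[ℂ] T}
    (h : LG p F S μ y e g) (h' : LG p F S μ y e g') : g (e (p y)) = g' (e (p y)) := by
  obtain ⟨f, hf⟩ := hF y e he
  refine eq_of_frequently h.1.continuousAt h'.1.continuousAt ?_
  have h1 := ep_ex hp he ((ep_at hp he).and ((hf.near hp he).and (h.2.and h'.2)))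
  refine ((hs y e f he hf).and_eventually h1).mono ?_
  rintro z ⟨hz, y', rfl, hy1, hy2, hy3, hy4⟩
  obtain ⟨Θ, hΘ⟩ := exists_isW (hrel y' e f hy1 hy2 hz) hz
  ext ξ
  rw [hy3 f hy2 hz Θ hΘ ξ, hy4 f hy2 hz Θ hΘ ξ]

/-- the mass bound in the form of helper500 -/
theorem tube_of {t : Cm n → Cm q} {s : Cm n → Cm n [⋀^Fin (q + 1)]→L[ℂ] W} {U V : Set (Cm n)}
    (hU : IsOpen U) (ht : ∀ x ∈ U, AnalyticAt ℂ t x) (hUV : U ⊆ V)
    (h : ∃ C : ℝ≥0∞, C ≠ ⊤ ∧ ∀ g : Cm q → ℝ≥0∞, Measurable g →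
      ∫⁻ z in V, g (t z) * ‖s z‖ₑ ^ 2 ≤ C * ∫⁻ x, g x) : H500.Tube volume t s U := by
  obtain ⟨C, hC, h1⟩ := h
  refine ⟨C, hC, fun A hA => ?_⟩
  have h2 := h1 (A.indicator fun _ => 1) (measurable_const.indicator hA.measurableSet)
  rw [lintegral_indicator hA.measurableSet, setLIntegral_const, one_mul] at h2
  refine le_trans ?_ h2
  have hc : ContinuousOn t U := fun x hx => (ht x hx).continuousAt.continuousWithinAt
  have hm : MeasurableSet (U ∩ t ⁻¹' A) := (hc.isOpen_inter_preimage hU hA).measurableSet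
  calc ∫⁻ x in U ∩ t ⁻¹' A, ‖s x‖ₑ ^ 2
      = ∫⁻ x in U ∩ t ⁻¹' A, (A.indicator (fun _ => (1 : ℝ≥0∞)) (t x)) * ‖s x‖ₑ ^ 2 := by
        refine setLIntegral_congr_fun hm fun x hx => ?_
        show ‖s x‖ₑ ^ 2 = (A.indicator (fun _ => (1 : ℝ≥0∞)) (t x)) * ‖s x‖ₑ ^ 2
        have hx' : t x ∈ A := hx.2
        rw [indicator_of_mem hx', one_mul]
    _ ≤ ∫⁻ x in V, (A.indicator (fun _ => (1 : ℝ≥0∞)) (t x)) * ‖s x‖ₑ ^ 2 :=
        lintegral_mono_set (inter_subset_left.trans hUV)

/-- existence of the local expression -/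
theorem exists_LG (hA : ThmARStmt) [CompleteSpace W] [CompleteSpace T] (hp : IsLocalHomeomorph p)
    (hF : ∀ y (e : Chart n X), At e (p y) → ∃ f, Rep p F y e f)
    (hs : ∀ y (e : Chart n X) f, At e (p y) → Rep p F y e f →
      ∃ᶠ z in 𝓝 (e (p y)), Function.Surjective (fderiv ℂ f z))
    (hS : RelS p F S) (μ : ContinuousMultilinearMap ℂ (fun _ : Fin k => W) T)
    {y : E} {e : Chart n X} (he : At e (p y)) : ∃ g, LG p F S μ y e g := by
  obtain ⟨f, hf⟩ := hF y e he
  obtain ⟨s, hs1, hs2⟩ := hS.form.holo y e he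
  obtain ⟨V, hV, hpush⟩ := hS.push y e f s he hf hs1 hs2
  have hQ : ∀ᶠ y' in 𝓝 y, At e (p y') ∧ Rep p F y' e f ∧ AnalyticAt ℂ s (e (p y')) ∧
      S y' e = s (e (p y')) := (ep_at hp he).and ((hf.near hp he).and
      (((ep_ev hp he).2 hs1.eventually_analyticAt).and hs2))
  obtain ⟨ρ, hρ, hU⟩ := Metric.mem_nhds_iff.1 (Filter.inter_mem hV (ep_ex hp he hQ))
  set U := Metric.ball (e (p y)) ρ with hUd
  have hUV : U ⊆ V := fun z hz => (hU hz).1
  have hex : ∀ z ∈ U, ∃ y', e (p y') = z ∧ At e (p y') ∧ Rep p F y' e f ∧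
      AnalyticAt ℂ s (e (p y')) ∧ S y' e = s (e (p y')) := fun z hz => (hU hz).2
  obtain ⟨g, hg1, hg2⟩ := loc_main hA (t := f) (S := s) (U := U) (x₀ := e (p y))
    Metric.isOpen_ball (convex_ball _ _).isPreconnected (Metric.mem_ball_self hρ)
    (fun z hz => by obtain ⟨y', rfl, -, h2, -⟩ := hex z hz; exact h2.1)
    (fun z hz => by obtain ⟨y', rfl, -, -, h3, -⟩ := hex z hz; exact h3)
    (fun z hz hsz => by
      obtain ⟨y', rfl, h1, h2, -, h4⟩ := hex z hz
      rw [← h4]
      exact fun ξ i j hij hi hj => hS.rel y' e f h1 h2 hsz ξ i j hij hi hj)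
    (tube_of Metric.isOpen_ball
      (fun z hz => by obtain ⟨y', rfl, -, h2, -⟩ := hex z hz; exact h2.1) hUV hpush)
    (hs y e f he hf) μ
  refine ⟨g, hg1, ?_⟩
  filter_upwards [(ep_ev hp he).2 hg2, hQ] with y' h1 h2 f' hf' hsu Θ hΘ ξ
  rw [hf'.fderiv_eq hp h2.1 h2.2.1] at hsu hΘ ⊢
  rw [h2.2.2.2] at hΘ
  exact h1 hsu Θ hΘ ξ

end

/-- **EXT on the covering** -/
theorem ext_of (hA : ThmARStmt) : ExtStmt := by
  intro n q X E _ _ _ _ p hp F hF hs W _ _ _ S hS k T _ _ _ μ
  classical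
  have hp' : IsLocalHomeomorph p := hp.isLocalHomeomorph
  have hrel : ∀ y e f, At e (p y) → Rep p F y e f →
      Function.Surjective (fderiv ℂ f (e (p y))) → RelP (fderiv ℂ f (e (p y))) (S y e) :=
    fun y e f h1 h2 h3 ξ i j hij hi hj => hS.rel y e f h1 h2 h3 ξ i j hij hi hj
  set G : E → Chart n X → Cm n [⋀^Fin (q + k)]→L[ℂ] T := fun y e =>
    if h : ∃ g, LG p F S μ y e g then h.choose (e (p y)) else 0 with hG
  have hGe : ∀ y e, At e (p y) → ∀ g, LG p F S μ y e g → G y e = g (e (p y)) := by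
    intro y e he g hg
    have h : ∃ g, LG p F S μ y e g := ⟨g, hg⟩
    rw [hG]
    simp only
    rw [dif_pos h]
    exact LG.unique hp' hF hs hrel he h.choose_spec hg
  refine ⟨G, ⟨fun y e he => ?_, fun y e e' he he' ξ => ?_⟩, ?_⟩
  · obtain ⟨g, hg⟩ := exists_LG hA hp' hF hs hS μ he
    refine ⟨g, hg.1, ?_⟩
    filter_upwards [ep_at hp' he, hg.near hp' he] with y' h1 h2
    exact hGe y' e h1 g h2
  · obtain ⟨g, hg⟩ := exists_LG hA hp' hF hs hS μ he'
    set τ : Cm n → Cm n := fun z => e' (e.symm z) with hτ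
    have hτa : AnalyticAt ℂ τ (e (p y)) := (transition he he').analyticAt
    have hτy : ∀ y', At e (p y') → τ (e (p y')) = e' (p y') := fun y' h => by
      rw [hτ]
      simp only
      rw [e.left_inv h.2]
    set σ : Cm n → Cm n := fun z => e (e'.symm z) with hσ
    have hg' : LG p F S μ y e
        (fun z => (g (τ z)).compContinuousLinearMap (fderiv ℂ τ z)) := by
      refine ⟨?_, ?_⟩
      · refine an_of fun v => ?_
        show AnalyticAt ℂ (fun z => g (τ z) fun i => fderiv ℂ τ z (Pi.single (v i) 1)) _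
        refine an_eval ?_ fun i => ?_
        · refine AnalyticAt.comp (g := g) (f := τ) ?_ hτa
          rw [hτy y he]
          exact hg.1
        · exact ((ContinuousLinearMap.apply ℂ (Cm n) (Pi.single (v i) 1 : Cm n)).analyticAt
            _).comp hτa.fderiv
      · filter_upwards [ep_at hp' he, ep_at hp' he', hg.2] with y' h1 h2 h3 f hf hsu Θ hΘ ξ
        -- the representative in the chart `e'`
        have hσa : AnalyticAt ℂ σ (e' (p y')) := (transition h2 h1).analyticAt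
        have hσy : σ (e' (p y')) = e (p y') := by
          rw [hσ]
          simp only
          rw [e'.left_inv h2.2]
        have hτa' : AnalyticAt ℂ τ (e (p y')) := (transition h1 h2).analyticAt
        have hτσ : (fderiv ℂ τ (e (p y'))).comp (fderiv ℂ σ (e' (p y'))) =
            ContinuousLinearMap.id ℂ (Cm n) := by
          have e1 : (fun z => τ (σ z)) =ᶠ[𝓝 (e' (p y'))] fun z => z := by
            filter_upwards [h2.nhds_at h1] with z hz
            show e' (e.symm (e (e'.symm z))) = z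
            rw [e.left_inv hz.2.2.2, e'.right_inv hz.1]
          have e2 := e1.fderiv_eq (𝕜 := ℂ)
          rw [fderiv_fun_id] at e2
          rw [← e2]
          have e3 := fderiv_comp (𝕜 := ℂ) (e' (p y')) (g := τ) (f := σ)
            (by rw [hσy]; exact hτa'.differentiableAt) hσa.differentiableAt
          rw [hσy] at e3
          exact e3.symm
        have hστ : (fderiv ℂ σ (e' (p y'))).comp (fderiv ℂ τ (e (p y'))) =
            ContinuousLinearMap.id ℂ (Cm n) := by
          have e1 : (fun z => σ (τ z)) =ᶠ[𝓝 (e (p y'))] fun z => z := by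
            filter_upwards [h1.nhds_at h2] with z hz
            show e (e'.symm (e' (e.symm z))) = z
            rw [e'.left_inv hz.2.2.2, e.right_inv hz.1]
          have e2 := e1.fderiv_eq (𝕜 := ℂ)
          rw [fderiv_fun_id] at e2
          rw [← e2]
          have e3 := fderiv_comp (𝕜 := ℂ) (e (p y')) (g := σ) (f := τ)
            (by rw [hτy y' h1]; exact hσa.differentiableAt) hτa'.differentiableAt
          rw [hτy y' h1] at e3
          exact e3.symm
        have hστ' : ∀ η, fderiv ℂ σ (e' (p y')) (fderiv ℂ τ (e (p y')) η) = η := fun η =>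
          congrArg (fun A : Cm n →L[ℂ] Cm n => A η) hστ
        have hτσ' : ∀ η, fderiv ℂ τ (e (p y')) (fderiv ℂ σ (e' (p y')) η) = η := fun η =>
          congrArg (fun A : Cm n →L[ℂ] Cm n => A η) hτσ
        have hf' : Rep p F y' e' (fun z => f (σ z)) := by
          refine ⟨AnalyticAt.comp (g := f) (f := σ) (by rw [hσy]; exact hf.1) hσa, ?_⟩
          filter_upwards [hf.2, ep_at hp' h2] with y'' h4 h5
          rw [h4]
          show f (e (p y'')) = f (e (e'.symm (e' (p y''))))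
          rw [e'.left_inv h5.2]
        have hD : fderiv ℂ (fun z => f (σ z)) (e' (p y')) =
            (fderiv ℂ f (e (p y'))).comp (fderiv ℂ σ (e' (p y'))) := by
          have e3 := fderiv_comp (𝕜 := ℂ) (e' (p y')) (g := f) (f := σ)
            (by rw [hσy]; exact hf.1.differentiableAt) hσa.differentiableAt
          rw [hσy] at e3
          exact e3
        have hD' : ∀ η, fderiv ℂ (fun z => f (σ z)) (e' (p y')) (fderiv ℂ τ (e (p y')) η) =
            fderiv ℂ f (e (p y')) η := by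
          intro η
          rw [hD]
          show fderiv ℂ f (e (p y')) (fderiv ℂ σ (e' (p y')) (fderiv ℂ τ (e (p y')) η)) = _
          rw [hστ']
        have hsu' : Function.Surjective (fderiv ℂ (fun z => f (σ z)) (e' (p y'))) := by
          intro x
          obtain ⟨η, hη⟩ := hsu x
          exact ⟨fderiv ℂ τ (e (p y')) η, by rw [hD', hη]⟩
        have hΘ' : IsW (fderiv ℂ (fun z => f (σ z)) (e' (p y'))) (S y' e')
            (Θ.comp (fderiv ℂ σ (e' (p y')))) := by
          intro ζ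
          have h4 := hS.form.change y' e e' h1 h2 fun i => fderiv ℂ σ (e' (p y')) (ζ i)
          have h5 : (fun i => fderiv ℂ (fun z => e' (e.symm z)) (e (p y'))
              (fderiv ℂ σ (e' (p y')) (ζ i))) = ζ := by
            funext i
            exact hτσ' (ζ i)
          rw [h5] at h4
          rw [← h4, hΘ]
          unfold gf
          rw [hD]
          rfl
        have h6 := h3 _ hf' hsu' _ hΘ' fun i => fderiv ℂ τ (e (p y')) (ξ i)
        show g (τ (e (p y'))) (fun i => fderiv ℂ τ (e (p y')) (ξ i)) = _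
        rw [hτy y' h1, h6]
        unfold gf
        simp only [hD']
        congr 1
        refine Finset.sum_congr rfl fun ρ _ => ?_
        congr 2
        congr 1
        funext a
        show Θ (fderiv ℂ σ (e' (p y')) (fderiv ℂ τ (e (p y')) _)) = _
        rw [hστ']
    rw [hGe y e he _ hg', hGe y e' he' g hg]
    show g (τ (e (p y))) (fun i => fderiv ℂ τ (e (p y)) (ξ i)) = _
    rw [hτy y he]
  · intro y e f he hf hsu Θ hΘ ξ
    obtain ⟨g, hg⟩ := exists_LG hA hp' hF hs hS μ he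
    rw [hGe y e he g hg]
    exact hg.2.self_of_nhds f hf hsu Θ hΘ ξ

end Vale.Agent.P284.H501
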