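import Vale.Agent.P284.H501.A1
import Vale.Agent.P284.H402.A.Spec

/-!
# P284 (helper501): A1 in the `K`-step form, and with commuting operators `T i`
-/

open Finset Filter Topology

noncomputable section

namespace Vale.Agent.P284.H501

open Vale.Agent.P284.H894.V.Abs

variable {V : Type} [AddCommGroup V] [Module ℝ V]

/-- **A1**, `K`-step form. -/
theorem a1K (ip en H : V →ₗ[ℝ] V →ₗ[ℝ] ℝ) (L : V →ₗ[ℝ] V) (M : V → ℝ)
    (ips : ∀ f h, ip f h = ip h f) (ip0 : ∀ f, 0 ≤ ip f f)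
    (ens : ∀ f h, en f h = en h f) (en0 : ∀ f, 0 ≤ en f f)
    (Hs : ∀ f h, H f h = H h f) (H0 : ∀ f, 0 ≤ H f f)
    (hL : ∀ f h, ip (L f) h = -en f h) (hM0 : ∀ f, 0 ≤ M f) (hM : ∀ f, M f ≤ -H (L f) f)
    (hB : ∃ B : ℝ, ∀ f h, H f h ^ 2 ≤ B * (ip f f + ip (L f) (L f)) * ip h h)
    (hd : ∀ l : ℝ, 0 < l → ∀ f, ∀ δ : ℝ, 0 < δ → ∃ v, ip (l • v - L v - f) (l • v - L v - f) < δ)
    (K : ℕ) (f₀ : V) (ε : ℝ) (hε : 0 < ε) (hε1 : ε ≤ 1) (hpos : 0 < ip f₀ f₀)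
    (hen : en f₀ f₀ ≤ ε * ip f₀ f₀) (hH : H f₀ f₀ ≤ ε * ip f₀ f₀)
    (hesc : ∀ b, ip b b ≤ 2 * ip f₀ f₀ → en b b ≤ 4 / 2 ^ K * ip f₀ f₀ → ip b f₀ ≤ ip f₀ f₀ / 40) :
    ∃ (v : V) (s : ℝ), 1 ≤ s ∧ s ≤ 2 ^ K ∧ 0 < en v v ∧
      ip v v + s ^ 2 * ip (L v) (L v) + ε⁻¹ * (H v v + s * M v) ≤ 2000 * (s * en v v) := by
  obtain ⟨B, hB⟩ := hB
  set C : ℝ := max B 0 with hC
  have hC0 : 0 ≤ C := le_max_right _ _
  have hHC : ∀ f r, H f r ^ 2 ≤ C * (ip f f + ip (L f) (L f)) * ip r r := by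
    intro f r
    refine (hB f r).trans ?_
    refine mul_le_mul_of_nonneg_right ?_ (ip0 r)
    exact mul_le_mul_of_nonneg_right (le_max_left _ _) (add_nonneg (ip0 _) (ip0 _))
  have hD : ∀ μ : ℝ, 0 < μ → D ip L μ := fun μ hμ => D_of (hd μ hμ)
  set I : ℝ := ip f₀ f₀ with hI
  set R : ℝ := 6 / 5 * Real.sqrt I with hR
  have hsI : 0 < Real.sqrt I := Real.sqrt_pos.2 hpos
  have hsI2 : Real.sqrt I ^ 2 = I := Real.sq_sqrt hpos.le
  have hR0 : 0 < R := by positivity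
  have hR2 : R ^ 2 = 36 / 25 * I := by rw [hR, mul_pow, hsI2]; norm_num
  have hK0 : (0 : ℝ) ≤ K := Nat.cast_nonneg K
  have h2K : (1 : ℝ) ≤ 2 ^ K := one_le_pow₀ one_le_two
  set η : ℝ := ε * I / (800 * (K + 1)) with hη
  have hη0 : 0 < η := by positivity
  -- choice of `ρ`
  set ρ : ℝ := min (Real.sqrt I / (10 * (K + 1))) (min (η / ((Real.sqrt (2 * C) + 1) * R))
    (I / (80 * (K + 1) * R * 2 ^ K))) with hρ
  have hρ0 : 0 < ρ := lt_min (by positivity) (lt_min (by positivity) (by positivity))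
  have hρ1 : (2 * K + 2) * ρ ≤ 1 / 5 * Real.sqrt I := by
    calc _ ≤ (2 * (K : ℝ) + 2) * (Real.sqrt I / (10 * (K + 1))) :=
          mul_le_mul_of_nonneg_left (min_le_left _ _) (by positivity)
      _ = 1 / 5 * Real.sqrt I := by field_simp; ring
  have hρ2 : (Real.sqrt (2 * C) + 1) * (R * ρ) ≤ η := by
    have h1 : ρ ≤ η / ((Real.sqrt (2 * C) + 1) * R) := (min_le_right _ _).trans (min_le_left _ _)
    rw [le_div_iff₀ (by positivity)] at h1
    linarith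
  have hRρ0 : 0 ≤ R * ρ := by positivity
  have hρ3 : R * ρ ≤ η := by
    have h1 : 0 ≤ Real.sqrt (2 * C) * (R * ρ) := by positivity
    linarith
  have hρ4 : Real.sqrt (2 * C) * (R * ρ) ≤ η := by linarith
  have hρ5 : (2 : ℝ) ^ K * (2 * K * (R * ρ)) ≤ I / 40 := by
    have h1 : ρ ≤ I / (80 * (K + 1) * R * 2 ^ K) := (min_le_right _ _).trans (min_le_right _ _)
    rw [le_div_iff₀ (by positivity)] at h1
    have h2 : 0 ≤ 2 ^ K * (R * ρ) := by positivity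
    linarith
  have hρ6 : 2 * K * (R * ρ) ≤ I / 40 := by
    have h1 : 0 ≤ 2 * K * (R * ρ) := by positivity
    have h2 : 1 * (2 * K * (R * ρ)) ≤ (2 : ℝ) ^ K * (2 * K * (R * ρ)) :=
      mul_le_mul_of_nonneg_right h2K h1
    linarith
  have hNf0 : N ip f₀ = Real.sqrt I := rfl
  have hNf : N ip f₀ + (2 * K + 2) * ρ ≤ R := by rw [hNf0]; linarith
  have hKρ : 0 ≤ (K : ℝ) * ρ := by positivity
  have hρR : ρ ≤ R := by linarith
  obtain ⟨u, r, hur⟩ := exists_aseq hD (σ := fun j => (2 : ℝ) ^ j) (fun j => by positivity) f₀ hρ0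
  obtain ⟨b, s, hbs⟩ := exists_aseq hD (σ := fun i => (2 : ℝ) ^ (K - 1 - i))
    (fun j => by positivity) (u K) hρ0
  have hch : Chain ip H L K η u r :=
    hur.chain ips ip0 en0 hL hC0 hHC (R := R) (by linarith) hρ3
      ((mul_le_mul_of_nonneg_right hρR hρ0.le).trans hρ3) hρ4
  obtain ⟨h2, h3, h4⟩ := reverse ips ip0 ens en0 hL hur hbs hNf
  have hb1 : ip (b K) (b K) ≤ 2 * ip f₀ f₀ := by
    rw [← N_sq ip0]
    refine (pow_le_pow_left₀ (N_nonneg _ _) h3 2).trans ?_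
    rw [hR2, ← hI]
    linarith
  have hb2 : en (b K) (b K) ≤ 4 / 2 ^ K * ip f₀ f₀ := by
    rw [div_mul_eq_mul_div, le_div_iff₀ (by positivity), ← hI]
    have h5 : ε * I ≤ 1 * I := mul_le_mul_of_nonneg_right hε1 hpos.le
    rw [hR2] at h4
    linarith
  have huK : ip (u K) (u K) ≤ ip (u 0) (u 0) / 20 := by
    have h5 := hesc _ hb1 hb2
    rw [hur.zero]
    linarith
  obtain ⟨j, hj1, hjK, hj⟩ := geoE ip en H L M ips ip0 ens en0 Hs H0 hL hM0 hM K u r η hch ε hε hε1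
    (by rw [hur.zero]; exact hpos)
    (by rw [hur.zero, ← hI]; apply le_of_eq; rw [hη]; field_simp) huK (by rw [hur.zero]; exact hen)
    (by rw [hur.zero]; exact hH)
  rw [hur.zero] at hj
  set d := u j - u (j + 1) with hd
  have hs0 : (0 : ℝ) < 2 ^ j := by positivity
  have a1 := ip0 d
  have a2 : 0 ≤ ((2 : ℝ) ^ j) ^ 2 * ip (L d) (L d) := mul_nonneg (sq_nonneg _) (ip0 _)
  have a5 : 0 < ip f₀ f₀ / (K + 1) := by positivity
  have a6 : 0 ≤ ε⁻¹ * (H d d + (2 : ℝ) ^ j * M d) :=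
    mul_nonneg (inv_nonneg.2 hε.le) (add_nonneg (H0 d) (mul_nonneg hs0.le (hM0 d)))
  have a7 : 0 < (2 : ℝ) ^ j * en d d := by linarith
  refine ⟨d, (2 : ℝ) ^ j, one_le_pow₀ one_le_two, pow_le_pow_right₀ one_le_two hjK,
    (mul_pos_iff_of_pos_left hs0).1 a7, by linarith⟩

/-- **A1** of the Spec. -/
theorem a1Stmt : H402.A.A1Stmt := by
  refine ⟨2000, by norm_num, ?_⟩
  intro V _ _ ip en H L ips ip0 ens en0 Hs H0 hL hM hB hd K f₀ ε hε hε1 hpos hen hH hesc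
  obtain ⟨B, hB⟩ := hB
  refine a1K ip en H L (fun f => -H (L f) f) ips ip0 ens en0 Hs H0 hL hM (fun f => le_rfl)
    ⟨max B 0, fun f h => (hB f h).trans ?_⟩ hd K f₀ ε hε hε1 hpos hen hH hesc
  refine mul_le_mul_of_nonneg_right ?_ (ip0 h)
  refine mul_le_mul (le_max_left _ _) ?_ (ip0 _) (le_max_right _ _)
  linarith [ip0 f]

/-- **A1 with commuting operators** `T i` (translations by central elements): the selected function is
moreover almost invariant, in `ip` and in energy. -/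
theorem a1T {ι : Type} [Fintype ι] (T : ι → V →ₗ[ℝ] V)
    (ip en H : V →ₗ[ℝ] V →ₗ[ℝ] ℝ) (L : V →ₗ[ℝ] V) (M : V → ℝ)
    (hTL : ∀ i f, T i (L f) = L (T i f)) (hTip : ∀ i f, ip (T i f) (T i f) ≤ ip f f)
    (ips : ∀ f h, ip f h = ip h f) (ip0 : ∀ f, 0 ≤ ip f f)
    (ens : ∀ f h, en f h = en h f) (en0 : ∀ f, 0 ≤ en f f)
    (Hs : ∀ f h, H f h = H h f) (H0 : ∀ f, 0 ≤ H f f)
    (hL : ∀ f h, ip (L f) h = -en f h) (hM0 : ∀ f, 0 ≤ M f) (hM : ∀ f, M f ≤ -H (L f) f)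
    (hB : ∃ B : ℝ, ∀ f h, H f h ^ 2 ≤ B * (ip f f + ip (L f) (L f)) * ip h h)
    (hd : ∀ l : ℝ, 0 < l → ∀ f, ∀ δ : ℝ, 0 < δ → ∃ v, ip (l • v - L v - f) (l • v - L v - f) < δ)
    (K : ℕ) (f₀ : V) (ε : ℝ) (hε : 0 < ε) (hε1 : ε ≤ 1) (hpos : 0 < ip f₀ f₀)
    (hen : en f₀ f₀ ≤ ε * ip f₀ f₀)
    (hH : H f₀ f₀ + ∑ i, ip (T i f₀ - f₀) (T i f₀ - f₀) ≤ ε * ip f₀ f₀)
    (hesc : ∀ b, ip b b ≤ 2 * ip f₀ f₀ → en b b ≤ 4 / 2 ^ K * ip f₀ f₀ → ip b f₀ ≤ ip f₀ f₀ / 40) :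
    ∃ (v : V) (s : ℝ), 1 ≤ s ∧ s ≤ 2 ^ K ∧ 0 < en v v ∧
      ip v v + s ^ 2 * ip (L v) (L v) + ε⁻¹ * (H v v + s * M v +
        ∑ i, (ip (T i v - v) (T i v - v) + s * en (T i v - v) (T i v - v))) ≤
      2000 * (s * en v v) := by
  set S : ι → V →ₗ[ℝ] V := fun i => T i - LinearMap.id with hS
  have hSf : ∀ i f, S i f = T i f - f := fun i f => rfl
  have hSL : ∀ i f, S i (L f) = L (S i f) := fun i f => by
    rw [hSf, hSf, map_sub, hTL]
  set H' : V →ₗ[ℝ] V →ₗ[ℝ] ℝ := H + ∑ i, (ip.comp (S i)).compl₂ (S i) with hH'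
  have hH'e : ∀ f h, H' f h = H f h + ∑ i, ip (S i f) (S i h) := by
    intro f h
    rw [hH']
    simp only [LinearMap.add_apply, LinearMap.sum_apply, LinearMap.compl₂_apply,
      LinearMap.comp_apply]
  set M' : V → ℝ := fun f => M f + ∑ i, en (S i f) (S i f) with hM'
  have key := a1K ip en H' L M' ips ip0 ens en0
    (fun f h => by
      rw [hH'e, hH'e, Hs]
      congr 1
      exact Finset.sum_congr rfl fun i _ => ips _ _)
    (fun f => by
      rw [hH'e]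
      exact add_nonneg (H0 f) (Finset.sum_nonneg fun i _ => ip0 _))
    hL
    (fun f => add_nonneg (hM0 f) (Finset.sum_nonneg fun i _ => en0 _))
    (fun f => by
      rw [hH'e, neg_add, ← Finset.sum_neg_distrib]
      refine add_le_add (hM f) (Finset.sum_le_sum fun i _ => ?_)
      rw [hSL, hL, neg_neg])
    (by
      obtain ⟨B, hB⟩ := hB
      refine ⟨2 * max B 0 + 2 * (4 * (Fintype.card ι : ℝ)) ^ 2, fun f h => ?_⟩
      have hnS : ∀ i f, N ip (S i f) ≤ 2 * N ip f := by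
        intro i f
        have h1 : N ip (T i f) ≤ N ip f := Real.sqrt_le_sqrt (hTip i f)
        have h2 := N_sub ips ip0 (T i f) f
        rw [hSf]
        linarith
      have h1 : |∑ i, ip (S i f) (S i h)| ≤ 4 * (Fintype.card ι : ℝ) * (N ip f * N ip h) := by
        refine (Finset.abs_sum_le_sum_abs _ _).trans ?_
        have h2 : ∀ i ∈ (Finset.univ : Finset ι), |ip (S i f) (S i h)| ≤
            4 * (N ip f * N ip h) := by
          intro i _
          refine (abs_le ips ip0 _ _).trans ?_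
          calc N ip (S i f) * N ip (S i h) ≤ (2 * N ip f) * (2 * N ip h) :=
                mul_le_mul (hnS i f) (hnS i h) (N_nonneg _ _)
                  (mul_nonneg zero_le_two (N_nonneg _ _))
            _ = _ := by ring
        refine (Finset.sum_le_sum h2).trans ?_
        rw [Finset.sum_const, Finset.card_univ, nsmul_eq_mul]
        apply le_of_eq
        ring
      have h3 : (∑ i, ip (S i f) (S i h)) ^ 2 ≤
          (4 * (Fintype.card ι : ℝ)) ^ 2 * (ip f f * ip h h) := by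
        rw [← sq_abs]
        refine (pow_le_pow_left₀ (abs_nonneg _) h1 2).trans ?_
        rw [mul_pow, mul_pow (N ip f), N_sq ip0, N_sq ip0]
      rw [hH'e]
      have h4 : H f h ^ 2 ≤ max B 0 * (ip f f + ip (L f) (L f)) * ip h h := by
        refine (hB f h).trans ?_
        refine mul_le_mul_of_nonneg_right ?_ (ip0 h)
        exact mul_le_mul_of_nonneg_right (le_max_left _ _) (add_nonneg (ip0 _) (ip0 _))
      have h5 : (H f h + ∑ i, ip (S i f) (S i h)) ^ 2 ≤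
          2 * H f h ^ 2 + 2 * (∑ i, ip (S i f) (S i h)) ^ 2 := by
        nlinarith [sq_nonneg (H f h - ∑ i, ip (S i f) (S i h))]
      have h6 : 0 ≤ (4 * (Fintype.card ι : ℝ)) ^ 2 * (ip (L f) (L f) * ip h h) :=
        mul_nonneg (sq_nonneg _) (mul_nonneg (ip0 _) (ip0 _))
      have h7 : (2 * max B 0 + 2 * (4 * (Fintype.card ι : ℝ)) ^ 2) *
          (ip f f + ip (L f) (L f)) * ip h h =
          2 * (max B 0 * (ip f f + ip (L f) (L f)) * ip h h) +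
          2 * ((4 * (Fintype.card ι : ℝ)) ^ 2 * (ip f f * ip h h)) +
          2 * ((4 * (Fintype.card ι : ℝ)) ^ 2 * (ip (L f) (L f) * ip h h)) := by ring
      rw [h7]
      linarith)
    hd K f₀ ε hε hε1 hpos hen (by rw [hH'e]; exact hH) hesc
  obtain ⟨v, s, h1, h2, h3, h4⟩ := key
  refine ⟨v, s, h1, h2, h3, ?_⟩
  rw [hH'e, hM'] at h4
  have h5 : H v v + s * M v + ∑ i, (ip (T i v - v) (T i v - v) + s * en (T i v - v) (T i v - v)) =
      H v v + ∑ i, ip (S i v) (S i v) + s * (M v + ∑ i, en (S i v) (S i v)) := by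
    rw [Finset.sum_add_distrib, ← Finset.mul_sum]
    simp only [hSf]
    ring
  rw [h5]
  exact h4

end Vale.Agent.P284.H501
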