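import Vale.Agent.P284.H894.V.V8
import Vale.Agent.P284.H894.V.V13

/-!
# P284 (helper501): the range of `l - Δ` on test functions is dense, for all `l > 0`
-/

open scoped Manifold ContDiff Topology Pointwise ComplexConjugate
open Filter Set Metric MeasureTheory

noncomputable section

namespace Vale.Agent.P284.H501

open Vale.Agent.P272.K Vale.Agent.P284.H248 Vale.Agent.P284.H894 Vale.Agent.P284.H894.G
  Vale.Agent.P284.H894.V Vale.Agent.P284.H894.V.Asm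

variable {n : ℕ} {Γ : Type} [Group Γ] {C : Coc n Γ}

theorem ipF_symm (h3 : V3Stmt) (h5 : V5Concl) (P : PU C) (K : KM C) (f h : tst C) :
    ipF h3 h5 P K f h = ipF h3 h5 P K h f :=
  Int_congr P K fun _ _ _ _ => mul_comm _ _

theorem ipF_nonneg (h3 : V3Stmt) (h5 : V5Concl) (P : PU C) (K : KM C) (f : tst C) :
    0 ≤ ipF h3 h5 P K f f :=
  Int_nonneg h3 P K (h5.fam C K f f f.2 f.2).1 fun _ _ _ _ => mul_self_nonneg _

theorem enF_symm (hP : VPStmt) (h3 : V3Stmt) (h5 : V5Concl) (P : PU C) (K : KM C) (f h : tst C) :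
    enF hP h3 h5 P K f h = enF hP h3 h5 P K h f :=
  Int_congr P K fun _ a z hz => hP.symm _ _ _ _ ((K.ku a).pos z (V_sub_Ω C a hz))

theorem enF_nonneg (hP : VPStmt) (h3 : V3Stmt) (h5 : V5Concl) (P : PU C) (K : KM C) (f : tst C) :
    0 ≤ enF hP h3 h5 P K f f :=
  Int_nonneg h3 P K (h5.fam C K f f f.2 f.2).2.1 fun _ a z hz =>
    (hP.nonneg _ _ _ ((K.ku a).pos z (V_sub_Ω C a hz))).1

theorem ipF_lap (hP : VPStmt) (h3 : V3Stmt) (h5 : V5Concl) (P : PU C) (K : KM C) (f h : tst C) :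
    ipF h3 h5 P K (lapF h5 K f) h = -enF hP h3 h5 P K f h :=
  h5.ibp C P K f h f.2 h.2

/-- **DN** -/
theorem dens (hP : VPStmt) (h3 : V3Stmt) (h5 : V5Concl) (h7 : V7Concl) (P : PU C) (K : KM C)
    (l : ℝ) (hl : 0 < l) (f : tst C) (η : ℝ) (hη : 0 < η) :
    ∃ v : tst C, ipF h3 h5 P K (l • v - lapF h5 K v - f) (l • v - lapF h5 K v - f) < η := by
  obtain ⟨l₀, hl₀, h⟩ := h7 n Γ C P K
  have hD : Abs.D (ipF h3 h5 P K) (lapF h5 K) (max l l₀) := by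
    refine Abs.D_of fun f δ hδ => ?_
    obtain ⟨v, hv, hlt⟩ := h _ (le_max_right l l₀) f f.2 δ hδ
    refine ⟨⟨v, hv⟩, ?_⟩
    refine lt_of_eq_of_lt ?_ hlt
    exact Int_congr P K fun γ a z _ => (sq _).symm
  have hD' : Abs.D (ipF h3 h5 P K) (lapF h5 K) l :=
    Abs.D_step (ipF_symm h3 h5 P K) (ipF_nonneg h3 h5 P K) (enF_nonneg hP h3 h5 P K)
      (ipF_lap hP h3 h5 P K) hl (le_max_left l l₀) hD
  obtain ⟨v, hv⟩ := hD' f (Real.sqrt η) (Real.sqrt_pos.2 hη)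
  refine ⟨v, ?_⟩
  have h1 := (Real.sqrt_lt_sqrt_iff (ipF_nonneg h3 h5 P K _)).1 hv
  exact h1

end Vale.Agent.P284.H501
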