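import Vale.Agent.P284.H501.ExtS
import Vale.Agent.P284.H335.Tens
import Mathlib.LinearAlgebra.Matrix.Adjugate
import Mathlib.LinearAlgebra.Alternating.Basic

/-!
# P284 (helper501), module EXT: pointwise algebra
-/

open scoped Topology
open Filter

noncomputable section

namespace Vale.Agent.P284.H501

open Vale.Agent.P272.K

variable {n q k : ℕ} {W T : Type*} [NormedAddCommGroup W] [NormedSpace ℂ W]
  [NormedAddCommGroup T] [NormedSpace ℂ T]

/-- `(dL_1 ∧ ⋯ ∧ dL_q)(w)` -/
def dL (L : Cm n →L[ℂ] Cm q) (w : Fin q → Cm n) : ℂ := (Matrix.of fun i j => L (w j) i).det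

theorem dL_eq (L : Cm n →L[ℂ] Cm q) (w : Fin q → Cm n) :
    (Matrix.of fun i j : Fin q => L (w i) j).det = dL L w := by
  rw [dL, ← Matrix.det_transpose]
  rfl

/-- Cramer's rule -/
theorem dL_cramer (L : Cm n →L[ℂ] Cm q) (w : Fin q → Cm n) (η : Cm n) :
    dL L w • L η = ∑ i, dL L (Function.update w i η) • L (w i) := by
  set M : Matrix (Fin q) (Fin q) ℂ := Matrix.of fun i j => L (w j) i with hM
  have h1 := Matrix.mulVec_cramer M (L η)
  have h2 : ∀ i, M.cramer (L η) i = dL L (Function.update w i η) := by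
    intro i
    rw [Matrix.cramer_apply, dL]
    congr 1
    ext a b
    rw [Matrix.updateCol_apply, Matrix.of_apply]
    by_cases hb : b = i
    · subst hb; simp
    · rw [if_neg hb, Function.update_of_ne hb, hM, Matrix.of_apply]
  rw [show dL L w = M.det from rfl, ← h1]
  ext a
  rw [Matrix.mulVec, dotProduct, Finset.sum_apply]
  refine Finset.sum_congr rfl fun i _ => ?_
  rw [h2 i, Pi.smul_apply, smul_eq_mul, hM, Matrix.of_apply, mul_comm]

/-- a version of `gf` with different forms in the slots -/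
def gm (k : ℕ) (L : Cm n →L[ℂ] Cm q) (Θ : Fin k → Cm n → W) (μ : (Fin k → W) → T)
    (ξ : Fin (q + k) → Cm n) : T :=
  ∑ σ : Equiv.Perm (Fin (q + k)), ((Equiv.Perm.sign σ : ℤ) : ℂ) •
    (dL L (fun i => ξ (σ (Fin.castAdd k i))) • μ fun a => Θ a (ξ (σ (Fin.natAdd q a))))

omit [NormedAddCommGroup W] [NormedSpace ℂ W] in
theorem gf_eq_gm (L : Cm n →L[ℂ] Cm q) (Θ : Cm n → W) (μ : (Fin k → W) → T)
    (ξ : Fin (q + k) → Cm n) :
    gf k L Θ μ ξ = ((q.factorial : ℂ)⁻¹) • gm k L (fun _ => Θ) μ ξ := by
  unfold gf gm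
  congr 1
  refine Finset.sum_congr rfl fun σ _ => ?_
  rw [← dL_eq]

/-- if one of the slots is `B ∘ L`, the form vanishes -/
theorem gm_eq_zero (L : Cm n →L[ℂ] Cm q) (Θ : Fin k → Cm n → W)
    (μ : MultilinearMap ℂ (fun _ : Fin k => W) T) (ξ : Fin (q + k) → Cm n) (b : Fin k)
    (B : Cm q →L[ℂ] W) (hb : ∀ η, Θ b η = B (L η)) : gm k L Θ μ ξ = 0 := by
  classical
  -- the summand
  set G : Equiv.Perm (Fin (q + k)) → T := fun σ =>
    dL L (fun i => ξ (σ (Fin.castAdd k i))) • μ fun a => Θ a (ξ (σ (Fin.natAdd q a))) with hG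
  have hsw : ∀ i : Fin q, gm k L Θ μ ξ = -∑ σ : Equiv.Perm (Fin (q + k)),
      ((Equiv.Perm.sign σ : ℤ) : ℂ) • G (σ * Equiv.swap (Fin.castAdd k i) (Fin.natAdd q b)) := by
    intro i
    have hne : (Fin.castAdd k i : Fin (q + k)) ≠ Fin.natAdd q b := by
      intro h
      have := congrArg Fin.val h
      simp at this
      omega
    unfold gm
    rw [← Equiv.sum_comp (Equiv.mulRight (Equiv.swap (Fin.castAdd k i) (Fin.natAdd q b)))]
    rw [← Finset.sum_neg_distrib]
    refine Finset.sum_congr rfl fun σ _ => ?_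
    simp only [Equiv.coe_mulRight, Equiv.Perm.sign_mul, Equiv.Perm.sign_swap hne]
    push_cast
    rw [mul_neg_one, neg_smul]
    rfl
  -- Cramer
  have hcr : ∀ σ : Equiv.Perm (Fin (q + k)), G σ = ∑ i : Fin q,
      G (σ * Equiv.swap (Fin.castAdd k i) (Fin.natAdd q b)) := by
    intro σ
    set w : Fin q → Cm n := fun i => ξ (σ (Fin.castAdd k i)) with hw
    set η : Cm n := ξ (σ (Fin.natAdd q b)) with hη
    set m : Fin k → W := fun a => Θ a (ξ (σ (Fin.natAdd q a))) with hm
    have hmb : m = Function.update m b (B (L η)) := by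
      rw [← hb]
      exact (Function.update_eq_self b m).symm
    have h1 : G σ = μ (Function.update m b (B (dL L w • L η))) := by
      rw [map_smul, μ.map_update_smul, ← hmb]
    rw [h1, dL_cramer, map_sum, μ.map_update_sum]
    refine Finset.sum_congr rfl fun i _ => ?_
    rw [map_smul, μ.map_update_smul]
    have hne : (Fin.castAdd k i : Fin (q + k)) ≠ Fin.natAdd q b := by
      intro h
      have := congrArg Fin.val h
      simp at this
      omega
    have e1 : (fun i' => ξ ((σ * Equiv.swap (Fin.castAdd k i) (Fin.natAdd q b))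
        (Fin.castAdd k i'))) = Function.update w i η := by
      funext i'
      by_cases h : i' = i
      · subst h
        rw [Function.update_self, Equiv.Perm.coe_mul, Function.comp_apply, Equiv.swap_apply_left]
      · rw [Function.update_of_ne h, Equiv.Perm.coe_mul, Function.comp_apply,
          Equiv.swap_apply_of_ne_of_ne]
        · intro h'
          exact h (Fin.castAdd_injective _ _ h')
        · intro h'
          have := congrArg Fin.val h'
          simp at this
          omega
    have e2 : (fun a => Θ a (ξ ((σ * Equiv.swap (Fin.castAdd k i) (Fin.natAdd q b))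
        (Fin.natAdd q a)))) = Function.update m b (B (L (w i))) := by
      funext a
      by_cases h : a = b
      · subst h
        rw [Function.update_self, Equiv.Perm.coe_mul, Function.comp_apply, Equiv.swap_apply_right,
          hb]
      · rw [Function.update_of_ne h, Equiv.Perm.coe_mul, Function.comp_apply,
          Equiv.swap_apply_of_ne_of_ne]
        · intro h'
          have := congrArg Fin.val h'
          simp at this
          omega
        · intro h'
          exact h (Fin.natAdd_injective _ _ h')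
    show _ = dL L _ • μ _
    rw [e1, e2]
  have h1 : gm k L Θ μ ξ = ∑ i : Fin q, -gm k L Θ μ ξ := by
    conv_lhs => unfold gm
    have h2 : ∀ σ : Equiv.Perm (Fin (q + k)), ((Equiv.Perm.sign σ : ℤ) : ℂ) •
        (dL L (fun i => ξ (σ (Fin.castAdd k i))) • μ fun a => Θ a (ξ (σ (Fin.natAdd q a)))) =
        ∑ i : Fin q, ((Equiv.Perm.sign σ : ℤ) : ℂ) •
          G (σ * Equiv.swap (Fin.castAdd k i) (Fin.natAdd q b)) := by
      intro σ
      rw [← Finset.smul_sum, ← hcr σ]
    rw [Finset.sum_congr rfl fun σ _ => h2 σ, Finset.sum_comm]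
    refine Finset.sum_congr rfl fun i _ => ?_
    rw [hsw i, neg_neg]
  rw [Finset.sum_const, Finset.card_univ, Fintype.card_fin] at h1
  have h3 : ((q : ℂ) + 1) • gm k L Θ μ ξ = 0 := by
    rw [add_smul, one_smul]
    nth_rewrite 2 [h1]
    rw [smul_neg, ← Nat.cast_smul_eq_nsmul ℂ, add_neg_cancel]
  rcases smul_eq_zero.1 h3 with h4 | h4
  · exfalso
    have : ((q : ℂ) + 1) ≠ 0 := by exact_mod_cast Nat.succ_ne_zero q
    exact this h4
  · exact h4

/-- `gf` only depends on `Θ` on vertical vectors -/
theorem gf_congr_ker (L : Cm n →L[ℂ] Cm q) (hL : Function.Surjective L) (Θ Θ' : Cm n →L[ℂ] W)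
    (h : ∀ η, L η = 0 → Θ η = Θ' η) (μ : MultilinearMap ℂ (fun _ : Fin k => W) T)
    (ξ : Fin (q + k) → Cm n) : gf k L Θ μ ξ = gf k L Θ' μ ξ := by
  classical
  obtain ⟨s, hs⟩ := (L : Cm n →ₗ[ℂ] Cm q).exists_rightInverse_of_surjective
    (LinearMap.range_eq_top.2 hL)
  have hs' : ∀ x, L (s x) = x := fun x => by
    have := congrArg (fun f : Cm q →ₗ[ℂ] Cm q => f x) hs
    simpa using this
  set B : Cm q →L[ℂ] W := (Θ - Θ').comp (LinearMap.toContinuousLinearMap s) with hB
  have hΘ : ∀ η, Θ η = Θ' η + B (L η) := by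
    intro η
    have h1 := h (η - s (L η)) (by rw [map_sub, hs', sub_self])
    rw [map_sub, map_sub, sub_eq_sub_iff_add_eq_add] at h1
    show Θ η = Θ' η + (Θ (s (L η)) - Θ' (s (L η)))
    rw [← add_sub_assoc, eq_sub_iff_add_eq, h1]
  rw [gf_eq_gm, gf_eq_gm]
  congr 1
  have h1 : gm k L (fun _ => Θ) μ ξ = ∑ A : Finset (Fin k),
      gm k L (fun a => if a ∈ A then Θ' else fun η => B (L η)) μ ξ := by
    unfold gm
    rw [Finset.sum_comm]
    refine Finset.sum_congr rfl fun σ _ => ?_
    rw [← Finset.smul_sum, ← Finset.smul_sum]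
    congr 2
    have h2 : (fun a => Θ (ξ (σ (Fin.natAdd q a)))) =
        (fun a => Θ' (ξ (σ (Fin.natAdd q a)))) + fun a => B (L (ξ (σ (Fin.natAdd q a)))) := by
      funext a
      exact hΘ _
    rw [h2, μ.map_add_univ]
    refine Finset.sum_congr rfl fun A _ => ?_
    congr 1
    funext a
    show _ = (if a ∈ A then (Θ' : Cm n → W) else fun η => B (L η)) _
    by_cases ha : a ∈ A
    · rw [Finset.piecewise_eq_of_mem _ _ _ ha, if_pos ha]
    · rw [Finset.piecewise_eq_of_notMem _ _ _ ha, if_neg ha]
  rw [h1, Finset.sum_eq_single Finset.univ]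
  · congr 1
    funext a
    rw [if_pos (Finset.mem_univ a)]
  · intro A _ hA
    obtain ⟨b, hb⟩ : ∃ b, b ∉ A := by
      by_contra hcon
      push Not at hcon
      exact hA (Finset.eq_univ_iff_forall.2 hcon)
    refine gm_eq_zero L _ μ ξ b B fun η => ?_
    rw [if_neg hb]
  · intro h
    exact absurd (Finset.mem_univ _) h

/-- `S` vanishes on two vertical vectors -/
def RelP (L : Cm n →L[ℂ] Cm q) (S : Cm n [⋀^Fin (q + 1)]→L[ℂ] W) : Prop :=
  ∀ (ξ : Fin (q + 1) → Cm n) (i j : Fin (q + 1)), i ≠ j → L (ξ i) = 0 → L (ξ j) = 0 → S ξ = 0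

/-- for a form with `RelP`: `S(w, η) det(L u) = det(L w) S(u, η)` for vertical `η` -/
theorem relP_swap {L : Cm n →L[ℂ] Cm q} {S : Cm n [⋀^Fin (q + 1)]→L[ℂ] W} (hS : RelP L S)
    (hL : Function.Surjective L) (u w : Fin q → Cm n) (η : Cm n) (hη : L η = 0) :
    dL L u • S (Fin.snoc (α := fun _ => Cm n) w η) =
      dL L w • S (Fin.snoc (α := fun _ => Cm n) u η) := by
  classical
  obtain ⟨s, hs⟩ := (L : Cm n →ₗ[ℂ] Cm q).exists_rightInverse_of_surjective
    (LinearMap.range_eq_top.2 hL)
  have hs' : ∀ x, L (s x) = x := fun x => by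
    have := congrArg (fun f : Cm q →ₗ[ℂ] Cm q => f x) hs
    simpa using this
  -- the alternating map with `η` fixed
  set A : Cm n [⋀^Fin q]→ₗ[ℂ] W :=
    { toFun := fun w => S (Fin.snoc (α := fun _ => Cm n) w η)
      map_update_add' := by
        intro inst m i x y
        obtain rfl : inst = instDecidableEqFin q := Subsingleton.elim _ _
        rw [Fin.snoc_update, Fin.snoc_update, Fin.snoc_update]
        exact S.map_update_add _ _ _ _
      map_update_smul' := by
        intro inst m i c x
        obtain rfl : inst = instDecidableEqFin q := Subsingleton.elim _ _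
        rw [Fin.snoc_update, Fin.snoc_update]
        exact S.map_update_smul _ _ _ _
      map_eq_zero_of_eq' := by
        intro v i j h hij
        refine S.map_eq_zero_of_eq _ (i := i.castSucc) (j := j.castSucc) ?_ ?_
        · rw [Fin.snoc_castSucc, Fin.snoc_castSucc, h]
        · intro h'
          exact hij (Fin.castSucc_injective _ h') } with hA
  have hAa : ∀ w, A w = S (Fin.snoc (α := fun _ => Cm n) w η) := fun w => rfl
  have hA0 : ∀ w i, L (w i) = 0 → A w = 0 := by
    intro w i hi
    rw [hAa]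
    refine hS _ i.castSucc (Fin.last q) (Fin.castSucc_lt_last i).ne ?_ ?_
    · rw [Fin.snoc_castSucc]
      exact hi
    · rw [Fin.snoc_last]
      exact hη
  -- `A w = A (s (L w))`
  have h1 : ∀ w, A w = A fun i => s (L (w i)) := by
    intro w
    have h2 : w = (fun i => s (L (w i))) + fun i => w i - s (L (w i)) := by
      funext i
      simp
    conv_lhs => rw [h2]
    have h3 := (A : MultilinearMap ℂ (fun _ : Fin q => Cm n) W).map_add_univ
      (fun i => s (L (w i))) fun i => w i - s (L (w i))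
    have h4 : A ((fun i => s (L (w i))) + fun i => w i - s (L (w i))) =
        ∑ B : Finset (Fin q), A (B.piecewise (fun i => s (L (w i))) fun i => w i - s (L (w i))) :=
      h3
    rw [h4, Finset.sum_eq_single Finset.univ]
    · rw [Finset.piecewise_univ]
    · intro B _ hB
      obtain ⟨b, hb⟩ : ∃ b, b ∉ B := by
        by_contra hcon
        push Not at hcon
        exact hB (Finset.eq_univ_iff_forall.2 hcon)
      refine hA0 _ b ?_
      rw [Finset.piecewise_eq_of_notMem _ _ _ hb, map_sub, hs', sub_self]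
    · intro h
      exact absurd (Finset.mem_univ _) h
  -- pull back to `ℂ^q`
  set A' : Cm q [⋀^Fin q]→ₗ[ℂ] W := A.compLinearMap s with hA'
  have h2 : ∀ w, A w = dL L w • A' (fun i => Pi.single i 1) := by
    intro w
    rw [h1 w]
    have h3 : A (fun i => s (L (w i))) = A' (fun i => L (w i)) := rfl
    rw [h3]
    have h4 := H335.alt_sum_det A' (Matrix.of fun i j => L (w j) i) fun i => Pi.single i 1
    rw [show dL L w = (Matrix.of fun i j => L (w j) i).det from rfl, ← h4]
    congr 1
    funext i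
    funext j
    rw [Finset.sum_apply, Finset.sum_eq_single j]
    · simp
    · intro b _ hb
      simp [Pi.single_eq_of_ne hb.symm]
    · simp
  rw [← hAa, ← hAa, h2 w, h2 u, smul_smul, smul_smul, mul_comm]

end Vale.Agent.P284.H501
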