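import Vale.Agent.P284.H501.An
import Mathlib.GroupTheory.Perm.Option
import Mathlib.Logic.Equiv.Fin.Basic

/-!
# P284 (helper501), module EXT: pointwise algebra, second part
-/

open scoped Topology
open Filter

noncomputable section

namespace Vale.Agent.P284.H501

open Vale.Agent.P272.K

variable {n q k : ℕ} {W T : Type*} [NormedAddCommGroup W] [NormedSpace ℂ W]
  [NormedAddCommGroup T] [NormedSpace ℂ T]

/-- a vertical argument kills the minors -/
theorem dL_zero {L : Cm n →L[ℂ] Cm q} {w : Fin q → Cm n} {i : Fin q} (h : L (w i) = 0) :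
    dL L w = 0 := by
  rw [← dL_eq]
  refine Matrix.det_eq_zero_of_row_eq_zero i fun j => ?_
  rw [Matrix.of_apply, h]
  rfl

/-- the minors of a map which is not onto vanish -/
theorem dL_not_surj {L : Cm n →L[ℂ] Cm q} (h : ¬ Function.Surjective L) (w : Fin q → Cm n) :
    dL L w = 0 := by
  by_contra h0
  apply h
  intro x
  set M : Matrix (Fin q) (Fin q) ℂ := Matrix.of fun i j => L (w j) i with hM
  have h1 := Matrix.mulVec_cramer M x
  have h2 : M.det ≠ 0 := h0
  refine ⟨(M.det)⁻¹ • ∑ j, M.cramer x j • w j, ?_⟩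
  rw [map_smul, map_sum]
  have h3 : ∑ j, L (M.cramer x j • w j) = M.det • x := by
    rw [← h1]
    ext a
    rw [Matrix.mulVec, dotProduct, Finset.sum_apply]
    refine Finset.sum_congr rfl fun i _ => ?_
    rw [map_smul, Pi.smul_apply, smul_eq_mul, hM, Matrix.of_apply, mul_comm]
  rw [h3, smul_smul, inv_mul_cancel₀ h2, one_smul]

omit [NormedAddCommGroup W] [NormedSpace ℂ W] in
theorem gf_not_surj {L : Cm n →L[ℂ] Cm q} (h : ¬ Function.Surjective L) (Θ : Cm n → W)
    (μ : (Fin k → W) → T) (ξ : Fin (q + k) → Cm n) : gf k L Θ μ ξ = 0 := by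
  rw [gf_eq_gm]
  unfold gm
  simp [dL_not_surj h]

/-- some minor of a surjective map on the standard basis is not zero -/
theorem dL_ne {L : Cm n →L[ℂ] Cm q} (h : Function.Surjective L) :
    ∃ J : Fin q → Fin n, dL L (fun i => Pi.single (J i) 1) ≠ 0 := by
  by_contra hcon
  push Not at hcon
  choose u hu using fun i : Fin q => h (Pi.single i 1)
  have h1 : dL L u = 1 := by
    rw [← dL_eq]
    have : (Matrix.of fun i j : Fin q => L (u i) j) = 1 := by
      ext i j
      rw [Matrix.of_apply, hu, Matrix.one_apply, Pi.single_apply]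
      simp [eq_comm]
    rw [this, Matrix.det_one]
  have h2 := mul_expand (dLA L : MultilinearMap ℂ (fun _ : Fin q => Cm n) ℂ) u
  have h3 : (dLA L : MultilinearMap ℂ (fun _ : Fin q => Cm n) ℂ) u = 1 := by
    rw [← h1, ← dLA_apply]
    rfl
  rw [h3] at h2
  have h4 : ∀ v : Fin q → Fin n, (dLA L : MultilinearMap ℂ (fun _ : Fin q => Cm n) ℂ)
      (fun i => Pi.single (v i) 1) = 0 := by
    intro v
    rw [← hcon v, ← dLA_apply]
    rfl
  rw [Finset.sum_eq_zero fun v _ => by rw [h4 v, smul_zero]] at h2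
  exact one_ne_zero h2

/-- `(dL ∧ Θ)(w, η) = dL(w) Θ(η)` for vertical `η` -/
theorem gf_one_snoc {L : Cm n →L[ℂ] Cm q} (Θ : Cm n →L[ℂ] W) (w : Fin q → Cm n) {η : Cm n}
    (hη : L η = 0) : gf 1 L Θ (fun w => w 0) (Fin.snoc (α := fun _ => Cm n) w η) =
      dL L w • Θ η := by
  classical
  rw [gf_eq_gm]
  unfold gm
  set ξ : Fin (q + 1) → Cm n := Fin.snoc (α := fun _ => Cm n) w η with hξ
  have hl : ξ (Fin.last q) = η := Fin.snoc_last _ _
  have hc : ∀ i : Fin q, ξ i.castSucc = w i := fun i => Fin.snoc_castSucc _ _ _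
  have hna : (Fin.natAdd q (0 : Fin 1) : Fin (q + 1)) = Fin.last q := by
    ext; simp
  set G : Equiv.Perm (Fin (q + 1)) → W := fun σ => ((Equiv.Perm.sign σ : ℤ) : ℂ) •
    (dL L (fun i => ξ (σ i.castSucc)) • Θ (ξ (σ (Fin.last q)))) with hG
  have h0 : ∀ σ : Equiv.Perm (Fin (q + 1)), ((Equiv.Perm.sign σ : ℤ) : ℂ) •
      (dL L (fun i => ξ (σ (Fin.castAdd 1 i))) • (fun w : Fin 1 → W => w 0)
        fun a => Θ (ξ (σ (Fin.natAdd q a)))) = G σ := by
    intro σ
    show ((Equiv.Perm.sign σ : ℤ) : ℂ) •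
      (dL L (fun i => ξ (σ (Fin.castAdd 1 i))) • Θ (ξ (σ (Fin.natAdd q (0 : Fin 1))))) = _
    rw [hna]
    rfl
  rw [Finset.sum_congr rfl fun σ _ => h0 σ]
  -- reindex by `Option (Fin q) × Perm (Fin q)`
  set Φ : Equiv.Perm (Fin (q + 1)) ≃ Option (Fin q) × Equiv.Perm (Fin q) :=
    (finSuccEquivLast (n := q)).permCongr.trans Equiv.Perm.decomposeOption with hΦ
  rw [← Equiv.sum_comp Φ.symm, Fintype.sum_prod_type]
  have hap : ∀ (o : Option (Fin q)) (τ : Equiv.Perm (Fin q)) (x : Fin (q + 1)),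
      Φ.symm (o, τ) x = finSuccEquivLast.symm
        ((Equiv.swap none o * Equiv.optionCongr τ) (finSuccEquivLast x)) := by
    intro o τ x
    rfl
  have hsg : ∀ (o : Option (Fin q)) (τ : Equiv.Perm (Fin q)),
      Equiv.Perm.sign (Φ.symm (o, τ)) = Equiv.Perm.sign (Equiv.swap none o) *
        Equiv.Perm.sign τ := by
    intro o τ
    have : Φ.symm (o, τ) = (finSuccEquivLast (n := q)).symm.permCongr
        (Equiv.swap none o * Equiv.optionCongr τ) := rfl
    rw [this, Equiv.Perm.sign_permCongr, Equiv.Perm.sign_mul, Equiv.optionCongr_sign]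
  rw [Finset.sum_eq_single (none : Option (Fin q))]
  · have h1 : ∀ τ : Equiv.Perm (Fin q), G (Φ.symm (none, τ)) = dL L w • Θ η := by
      intro τ
      have e1 : Φ.symm (none, τ) (Fin.last q) = Fin.last q := by
        rw [hap]
        simp
      have e2 : ∀ i : Fin q, Φ.symm (none, τ) i.castSucc = (τ i).castSucc := by
        intro i
        rw [hap]
        simp
      rw [hG]
      simp only [e1, e2, hl, hc, hsg]
      have e3 : dL L (fun i => w (τ i)) = ((Equiv.Perm.sign τ : ℤ) : ℂ) * dL L w := by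
        rw [← dL_eq, ← dL_eq]
        exact Matrix.det_permute τ (Matrix.of fun i j : Fin q => L (w i) j)
      rw [e3, smul_smul]
      congr 1
      rw [Equiv.swap_self, Equiv.Perm.sign_refl, one_mul]
      rcases Int.units_eq_one_or (Equiv.Perm.sign τ) with h | h <;> simp [h]
    rw [Finset.sum_congr rfl fun τ _ => h1 τ, Finset.sum_const, Finset.card_univ,
      Fintype.card_perm, Fintype.card_fin, ← Nat.cast_smul_eq_nsmul ℂ, smul_smul,
      inv_mul_cancel₀ (fac_ne q), one_smul]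
  · intro o _ ho
    refine Finset.sum_eq_zero fun τ _ => ?_
    obtain ⟨j, rfl⟩ := Option.ne_none_iff_exists'.1 ho
    have e1 : Φ.symm (some j, τ) (τ.symm j).castSucc = Fin.last q := by
      rw [hap]
      simp
    have e4 : (dL L fun i => ξ ((Φ.symm (some j, τ)) i.castSucc)) = 0 := by
      refine dL_zero (i := τ.symm j) ?_
      rw [e1, hl, hη]
    show ((Equiv.Perm.sign (Φ.symm (some j, τ)) : ℤ) : ℂ) •
      ((dL L fun i => ξ ((Φ.symm (some j, τ)) i.castSucc)) •
        Θ (ξ ((Φ.symm (some j, τ)) (Fin.last q)))) = 0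
    rw [e4, zero_smul, smul_zero]
  · intro h
    exact absurd (Finset.mem_univ _) h

/-- `RelP` forms which vanish on `(w, η)` for all `w` and all vertical `η` are zero -/
theorem relP_zero {L : Cm n →L[ℂ] Cm q} {D : Cm n [⋀^Fin (q + 1)]→L[ℂ] W}
    (hL : Function.Surjective L)
    (h : ∀ (w : Fin q → Cm n) (η : Cm n), L η = 0 →
      D (Fin.snoc (α := fun _ => Cm n) w η) = 0) : D = 0 := by
  classical
  obtain ⟨s, hs⟩ := (L : Cm n →ₗ[ℂ] Cm q).exists_rightInverse_of_surjective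
    (LinearMap.range_eq_top.2 hL)
  have hs' : ∀ x, L (s x) = x := fun x => by
    have := congrArg (fun f : Cm q →ₗ[ℂ] Cm q => f x) hs
    simpa using this
  -- a vertical argument anywhere
  have h1 : ∀ (ξ : Fin (q + 1) → Cm n) (i : Fin (q + 1)), L (ξ i) = 0 → D ξ = 0 := by
    intro ξ i hi
    by_cases hil : i = Fin.last q
    · have : ξ = Fin.snoc (α := fun _ => Cm n) (fun j => ξ j.castSucc) (ξ (Fin.last q)) := by
        funext j
        refine Fin.lastCases ?_ (fun j => ?_) j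
        · rw [Fin.snoc_last]
        · rw [Fin.snoc_castSucc]
      rw [this]
      exact h _ _ (by rw [← hil]; exact hi)
    · have h2 : D (ξ ∘ Equiv.swap i (Fin.last q)) = -D ξ :=
        (D.toAlternatingMap).map_swap ξ hil
      have h3 : ξ ∘ Equiv.swap i (Fin.last q) = Fin.snoc (α := fun _ => Cm n)
          (fun j => ξ (Equiv.swap i (Fin.last q) j.castSucc)) (ξ i) := by
        funext j
        refine Fin.lastCases ?_ (fun j => ?_) j
        · rw [Fin.snoc_last, Function.comp_apply, Equiv.swap_apply_right]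
        · rw [Fin.snoc_castSucc]
          rfl
      rw [h3, h _ _ hi] at h2
      exact neg_eq_zero.1 h2.symm
  ext ξ
  show D ξ = 0
  have h2 : ξ = (fun i => s (L (ξ i))) + fun i => ξ i - s (L (ξ i)) := by
    funext i
    simp
  have h4 : D ((fun i => s (L (ξ i))) + fun i => ξ i - s (L (ξ i))) =
      ∑ B : Finset (Fin (q + 1)),
        D (B.piecewise (fun i => s (L (ξ i))) fun i => ξ i - s (L (ξ i))) :=
    (D.toAlternatingMap : MultilinearMap ℂ (fun _ : Fin (q + 1) => Cm n) W).map_add_univ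
      (fun i => s (L (ξ i))) fun i => ξ i - s (L (ξ i))
  rw [h2, h4, Finset.sum_eq_single Finset.univ]
  · rw [Finset.piecewise_univ]
    have h5 : ¬ LinearIndependent ℂ fun i => s (L (ξ i)) := by
      intro hli
      have h6 : LinearIndependent ℂ fun i => L (ξ i) := by
        have : (fun i => s (L (ξ i))) = s ∘ fun i => L (ξ i) := rfl
        rw [this] at hli
        exact LinearIndependent.of_comp s hli
      have h7 := h6.fintype_card_le_finrank
      simp [Cm] at h7
    exact (D.toAlternatingMap).map_linearDependent _ h5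
  · intro B _ hB
    obtain ⟨b, hb⟩ : ∃ b, b ∉ B := by
      by_contra hcon
      push Not at hcon
      exact hB (Finset.eq_univ_iff_forall.2 hcon)
    refine h1 _ b ?_
    rw [Finset.piecewise_eq_of_notMem _ _ _ hb, map_sub, hs', sub_self]
  · intro h
    exact absurd (Finset.mem_univ _) h

/-- `μ₁` -/
def mu1 (W : Type*) [NormedAddCommGroup W] [NormedSpace ℂ W] :
    MultilinearMap ℂ (fun _ : Fin 1 => W) W :=
  LinearMap.compMultilinearMap (LinearMap.id (R := ℂ) (M := W))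
    (MultilinearMap.ofSubsingleton ℂ W W (0 : Fin 1) LinearMap.id)

theorem mu1_apply (w : Fin 1 → W) : mu1 W w = w 0 := by
  simp [mu1]

/-- the form `dL ∧ Θ` -/
theorem isW_iff {L : Cm n →L[ℂ] Cm q} {S : Cm n [⋀^Fin (q + 1)]→L[ℂ] W} {Θ : Cm n →L[ℂ] W} :
    IsW L S Θ ↔ S = gfA 1 L Θ (mu1 W) := by
  constructor
  · intro h
    ext ξ
    rw [gfA_apply, h ξ]
    congr 1
  · intro h ξ
    rw [h, gfA_apply]
    congr 1

/-- `S(w, η) = dL(w) Θ(η)` -/
theorem IsW.snoc {L : Cm n →L[ℂ] Cm q} {S : Cm n [⋀^Fin (q + 1)]→L[ℂ] W} {Θ : Cm n →L[ℂ] W}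
    (h : IsW L S Θ) (w : Fin q → Cm n) {η : Cm n} (hη : L η = 0) :
    S (Fin.snoc (α := fun _ => Cm n) w η) = dL L w • Θ η := by
  rw [h, gf_one_snoc Θ w hη]

/-- converse -/
theorem isW_of_snoc {L : Cm n →L[ℂ] Cm q} {S : Cm n [⋀^Fin (q + 1)]→L[ℂ] W} {Θ : Cm n →L[ℂ] W}
    (hL : Function.Surjective L)
    (h : ∀ (w : Fin q → Cm n) (η : Cm n), L η = 0 →
      S (Fin.snoc (α := fun _ => Cm n) w η) = dL L w • Θ η) : IsW L S Θ := by
  rw [isW_iff]
  have h1 : S - gfA 1 L Θ (mu1 W) = 0 := by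
    refine relP_zero hL fun w η hη => ?_
    have h2 : gfA 1 L Θ (mu1 W) (Fin.snoc (α := fun _ => Cm n) w η) = dL L w • Θ η := by
      rw [gfA_apply, ← gf_one_snoc Θ w hη]
      congr 1
    show S (Fin.snoc (α := fun _ => Cm n) w η) -
      gfA 1 L Θ (mu1 W) (Fin.snoc (α := fun _ => Cm n) w η) = 0
    rw [h2, h w η hη, sub_self]
  exact sub_eq_zero.1 h1

/-- the slice functional `η ↦ S(w, η)` -/
def sl (S : Cm n [⋀^Fin (q + 1)]→L[ℂ] W) (w : Fin q → Cm n) : Cm n →L[ℂ] W :=
  S.toContinuousLinearMap (Fin.snoc (α := fun _ => Cm n) w 0) (Fin.last q)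

theorem sl_apply (S : Cm n [⋀^Fin (q + 1)]→L[ℂ] W) (w : Fin q → Cm n) (η : Cm n) :
    sl S w η = S (Fin.snoc (α := fun _ => Cm n) w η) := by
  show S (Function.update (Fin.snoc (α := fun _ => Cm n) w 0) (Fin.last q) η) = _
  rw [Fin.update_snoc_last]

/-- existence of `Θ` -/
theorem isW_sl {L : Cm n →L[ℂ] Cm q} {S : Cm n [⋀^Fin (q + 1)]→L[ℂ] W} (hS : RelP L S)
    (hL : Function.Surjective L) {u : Fin q → Cm n} (hu : dL L u ≠ 0) :
    IsW L S ((dL L u)⁻¹ • sl S u) := by
  refine isW_of_snoc hL fun w η hη => ?_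
  rw [smul_apply, sl_apply, smul_comm, ← relP_swap hS hL u w η hη, smul_smul,
    inv_mul_cancel₀ hu, one_smul]

theorem exists_isW {L : Cm n →L[ℂ] Cm q} {S : Cm n [⋀^Fin (q + 1)]→L[ℂ] W} (hS : RelP L S)
    (hL : Function.Surjective L) : ∃ Θ, IsW L S Θ := by
  obtain ⟨J, hJ⟩ := dL_ne hL
  exact ⟨_, isW_sl hS hL hJ⟩

/-- two choices of `Θ` agree on vertical vectors -/
theorem IsW.eq_vert {L : Cm n →L[ℂ] Cm q} {S : Cm n [⋀^Fin (q + 1)]→L[ℂ] W}
    {Θ Θ' : Cm n →L[ℂ] W} (hL : Function.Surjective L) (h : IsW L S Θ) (h' : IsW L S Θ')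
    {η : Cm n} (hη : L η = 0) : Θ η = Θ' η := by
  obtain ⟨J, hJ⟩ := dL_ne hL
  have h1 := h.snoc (fun i => Pi.single (J i) 1) hη
  rw [h'.snoc (fun i => Pi.single (J i) 1) hη] at h1
  exact (smul_right_injective W hJ h1).symm

/-- the form of `S` with `w` fixed -/
theorem gf_sl {L : Cm n →L[ℂ] Cm q} {S : Cm n [⋀^Fin (q + 1)]→L[ℂ] W} {Θ : Cm n →L[ℂ] W}
    (h : ∀ (w : Fin q → Cm n) (η : Cm n), L η = 0 →
      S (Fin.snoc (α := fun _ => Cm n) w η) = dL L w • Θ η)
    (μ : MultilinearMap ℂ (fun _ : Fin k => W) T) (u : Fin q → Cm n) (ξ : Fin (q + k) → Cm n) :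
    gf k L (sl S u) μ ξ = dL L u ^ k • gf k L Θ μ ξ := by
  by_cases hL : Function.Surjective L
  · rw [← gf_smul]
    refine gf_congr_ker L hL _ _ (fun η hη => ?_) μ ξ
    rw [sl_apply, h u η hη]
    rfl
  · rw [gf_not_surj hL, gf_not_surj hL, smul_zero]

/-- analytic evaluation -/
theorem an_eval {m : ℕ} {P : Type*} [NormedAddCommGroup P] [NormedSpace ℂ P]
    {g : P → Cm n [⋀^Fin m]→L[ℂ] T} {ξ : P → Fin m → Cm n} {x : P} (h : AnalyticAt ℂ g x)
    (hξ : ∀ i, AnalyticAt ℂ (fun y => ξ y i) x) : AnalyticAt ℂ (fun y => g y (ξ y)) x := by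
  have h1 : (fun y => g y (ξ y)) = fun y => ∑ v : Fin m → Fin n, (∏ i, ξ y i (v i)) •
      g y (fun i => Pi.single (v i) 1) := by
    funext y
    exact mul_expand ((g y).toAlternatingMap : MultilinearMap ℂ (fun _ : Fin m => Cm n) T) (ξ y)
  rw [h1]
  refine Finset.analyticAt_fun_sum _ fun v _ => ?_
  refine AnalyticAt.smul (Finset.analyticAt_fun_prod _ fun i _ => ?_) (an_apply h _)
  exact ((ContinuousLinearMap.proj (R := ℂ) (φ := fun _ : Fin n => ℂ) (v i)).analyticAt _).comp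
    (hξ i)

/-- analyticity of the slice -/
theorem an_sl {P : Type*} [NormedAddCommGroup P] [NormedSpace ℂ P]
    {S : P → Cm n [⋀^Fin (q + 1)]→L[ℂ] W} {x : P} (h : AnalyticAt ℂ S x) (u : Fin q → Cm n) :
    AnalyticAt ℂ (fun y => sl (S y) u) x := by
  have h1 : (fun y => sl (S y) u) = fun y => ∑ j : Fin n,
      (ContinuousLinearMap.proj (R := ℂ) (φ := fun _ : Fin n => ℂ) j).smulRight
        (S y (Fin.snoc (α := fun _ => Cm n) u (Pi.single j 1))) := by
    funext y
    ext η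
    rw [sum_apply]
    have h2 : η = ∑ j, η j • (Pi.single j 1 : Cm n) := by
      funext l
      rw [Finset.sum_apply, Finset.sum_eq_single l]
      · simp
      · intro b _ hb
        simp [Pi.single_eq_of_ne hb.symm]
      · simp
    conv_lhs => rw [h2]
    rw [map_sum]
    refine Finset.sum_congr rfl fun j _ => ?_
    rw [map_smul, sl_apply]
    rfl
  rw [h1]
  refine Finset.analyticAt_fun_sum _ fun j _ => ?_
  exact ((ContinuousLinearMap.smulRightL ℂ (Cm n) W
    (ContinuousLinearMap.proj (R := ℂ) (φ := fun _ : Fin n => ℂ) j)).analyticAt _).comp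
      (an_apply h _)

end Vale.Agent.P284.H501
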