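import Vale.Agent.P284.H501.Alg
import Mathlib.Analysis.Normed.Module.Alternating.Basic
import Mathlib.Analysis.Analytic.Constructions

/-!
# P284 (helper501), module EXT: alternating maps on `ℂⁿ` and their components; analyticity
-/

open scoped Topology
open Filter

noncomputable section

namespace Vale.Agent.P284.H501

open Vale.Agent.P272.K

section
variable {n m : ℕ} {T : Type*} [NormedAddCommGroup T] [NormedSpace ℂ T]

/-- the coordinate forms -/
def cd (v : Fin m → Fin n) : Cm n [⋀^Fin m]→ₗ[ℂ] ℂ :=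
  (Matrix.detRowAlternating (n := Fin m) (R := ℂ)).compLinearMap (LinearMap.funLeft ℂ ℂ v)

theorem cd_apply (v : Fin m → Fin n) (ξ : Fin m → Cm n) :
    cd v ξ = ∑ σ : Equiv.Perm (Fin m), ((Equiv.Perm.sign σ : ℤ) : ℂ) * ∏ i, ξ (σ i) (v i) := by
  show (Matrix.of fun i j => ξ i (v j)).det = _
  rw [Matrix.det_apply']
  rfl

theorem cd_bound (v : Fin m → Fin n) (ξ : Fin m → Cm n) :
    ‖cd v ξ‖ ≤ m.factorial * ∏ i, ‖ξ i‖ := by
  rw [cd_apply]
  refine (norm_sum_le _ _).trans ?_
  have h1 : ∀ σ ∈ (Finset.univ : Finset (Equiv.Perm (Fin m))),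
      ‖((Equiv.Perm.sign σ : ℤ) : ℂ) * ∏ i, ξ (σ i) (v i)‖ ≤ ∏ i, ‖ξ i‖ := by
    intro σ _
    rw [norm_mul]
    have h2 : ‖((Equiv.Perm.sign σ : ℤ) : ℂ)‖ = 1 := by
      rcases Int.units_eq_one_or (Equiv.Perm.sign σ) with h | h <;> simp [h]
    rw [h2, one_mul, norm_prod, ← Equiv.prod_comp σ fun i => ‖ξ i‖]
    exact Finset.prod_le_prod (fun i _ => norm_nonneg _) fun i _ => norm_le_pi_norm _ _
  refine (Finset.sum_le_sum h1).trans ?_
  rw [Finset.sum_const, Finset.card_univ, Fintype.card_perm, Fintype.card_fin, nsmul_eq_mul]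

theorem alt_sum {ι : Type*} (s : Finset ι) (f : ι → Cm n [⋀^Fin m]→ₗ[ℂ] T) (ξ : Fin m → Cm n) :
    (∑ v ∈ s, f v) ξ = ∑ v ∈ s, f v ξ := by
  classical
  induction s using Finset.induction_on with
  | empty => simp
  | insert a s ha ih => rw [Finset.sum_insert ha, Finset.sum_insert ha, AlternatingMap.add_apply, ih]

/-- reconstruction of an alternating map from its components -/
def RmF (c : (Fin m → Fin n) → T) : Cm n [⋀^Fin m]→ₗ[ℂ] T :=
  ((m.factorial : ℂ)⁻¹) • ∑ v : Fin m → Fin n,
    (LinearMap.toSpanSingleton ℂ T (c v)).compAlternatingMap (cd v)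

theorem RmF_apply (c : (Fin m → Fin n) → T) (ξ : Fin m → Cm n) :
    RmF c ξ = ((m.factorial : ℂ)⁻¹) • ∑ v : Fin m → Fin n, cd v ξ • c v := by
  rw [RmF, AlternatingMap.smul_apply, alt_sum]
  rfl

/-- reconstruction of an alternating map from its components, linear -/
def RmL (n m : ℕ) (T : Type*) [NormedAddCommGroup T] [NormedSpace ℂ T] :
    ((Fin m → Fin n) → T) →ₗ[ℂ] Cm n [⋀^Fin m]→ₗ[ℂ] T where
  toFun c := RmF c
  map_add' c c' := by
    ext ξ
    rw [AlternatingMap.add_apply, RmF_apply, RmF_apply, RmF_apply, ← smul_add,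
      ← Finset.sum_add_distrib]
    simp only [Pi.add_apply, smul_add]
  map_smul' a c := by
    ext ξ
    rw [RingHom.id_apply, AlternatingMap.smul_apply, RmF_apply, RmF_apply]
    simp only [Pi.smul_apply, Finset.smul_sum]
    refine Finset.sum_congr rfl fun v _ => ?_
    rw [smul_comm a, smul_comm a]

theorem RmL_apply (c : (Fin m → Fin n) → T) (ξ : Fin m → Cm n) :
    RmL n m T c ξ = ((m.factorial : ℂ)⁻¹) • ∑ v : Fin m → Fin n, cd v ξ • c v :=
  RmF_apply c ξ

theorem fac_ne (m : ℕ) : (m.factorial : ℂ) ≠ 0 := by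
  exact_mod_cast Nat.factorial_ne_zero m

theorem RmL_bound (c : (Fin m → Fin n) → T) (ξ : Fin m → Cm n) :
    ‖RmL n m T c ξ‖ ≤ (Fintype.card (Fin m → Fin n) : ℝ) * ‖c‖ * ∏ i, ‖ξ i‖ := by
  rw [RmL_apply, norm_smul, norm_inv]
  have h0 : ‖(m.factorial : ℂ)‖ = m.factorial := by simp
  rw [h0]
  have h1 : ‖∑ v : Fin m → Fin n, cd v ξ • c v‖ ≤
      m.factorial * ((Fintype.card (Fin m → Fin n) : ℝ) * ‖c‖ * ∏ i, ‖ξ i‖) := by
    refine (norm_sum_le _ _).trans ?_
    have h2 : ∀ v ∈ (Finset.univ : Finset (Fin m → Fin n)), ‖cd v ξ • c v‖ ≤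
        m.factorial * (‖c‖ * ∏ i, ‖ξ i‖) := by
      intro v _
      rw [norm_smul]
      calc ‖cd v ξ‖ * ‖c v‖ ≤ (m.factorial * ∏ i, ‖ξ i‖) * ‖c‖ :=
            mul_le_mul (cd_bound v ξ) (norm_le_pi_norm _ _) (norm_nonneg _)
              (mul_nonneg (Nat.cast_nonneg _) (Finset.prod_nonneg fun i _ => norm_nonneg _))
        _ = _ := by ring
    refine (Finset.sum_le_sum h2).trans ?_
    rw [Finset.sum_const, Finset.card_univ, nsmul_eq_mul]
    apply le_of_eq
    ring
  have h3 : (0 : ℝ) < m.factorial := by exact_mod_cast Nat.factorial_pos m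
  rw [inv_mul_le_iff₀ h3]
  exact h1

/-- the same, continuous -/
def Rm (n m : ℕ) (T : Type*) [NormedAddCommGroup T] [NormedSpace ℂ T] :
    ((Fin m → Fin n) → T) →L[ℂ] Cm n [⋀^Fin m]→L[ℂ] T :=
  AlternatingMap.mkContinuousLinear (RmL n m T) (Fintype.card (Fin m → Fin n) : ℝ) RmL_bound

theorem Rm_apply (c : (Fin m → Fin n) → T) (ξ : Fin m → Cm n) :
    Rm n m T c ξ = RmL n m T c ξ := rfl

/-- expansion of a multilinear map -/
theorem mul_expand (g : MultilinearMap ℂ (fun _ : Fin m => Cm n) T) (ξ : Fin m → Cm n) :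
    g ξ = ∑ v : Fin m → Fin n, (∏ i, ξ i (v i)) • g (fun i => Pi.single (v i) 1) := by
  have h1 : ξ = fun i => ∑ j, ξ i j • (Pi.single j 1 : Cm n) := by
    funext i
    funext l
    rw [Finset.sum_apply, Finset.sum_eq_single l]
    · simp
    · intro b _ hb
      simp [Pi.single_eq_of_ne hb.symm]
    · simp
  conv_lhs => rw [h1]
  rw [g.map_sum]
  refine Finset.sum_congr rfl fun v _ => ?_
  rw [g.map_smul_univ]

theorem RmL_comp (g : Cm n [⋀^Fin m]→ₗ[ℂ] T) :
    RmL n m T (fun v => g fun i => Pi.single (v i) 1) = g := by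
  ext ξ
  rw [RmL_apply]
  have h1 : ∑ v : Fin m → Fin n, cd v ξ • g (fun i => Pi.single (v i) 1) =
      (m.factorial : ℂ) • g ξ := by
    have h2 : ∀ v : Fin m → Fin n, cd v ξ • g (fun i => Pi.single (v i) 1) =
        ∑ σ : Equiv.Perm (Fin m), ((Equiv.Perm.sign σ : ℤ) : ℂ) •
          ((∏ i, ξ (σ i) (v i)) • g (fun i => Pi.single (v i) 1)) := by
      intro v
      rw [cd_apply, Finset.sum_smul]
      refine Finset.sum_congr rfl fun σ _ => ?_
      rw [mul_smul]
    rw [Finset.sum_congr rfl fun v _ => h2 v, Finset.sum_comm]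
    have h3 : ∀ σ : Equiv.Perm (Fin m), ∑ v : Fin m → Fin n, ((Equiv.Perm.sign σ : ℤ) : ℂ) •
        ((∏ i, ξ (σ i) (v i)) • g (fun i => Pi.single (v i) 1)) = g ξ := by
      intro σ
      rw [← Finset.smul_sum]
      have h4 := mul_expand (g : MultilinearMap ℂ (fun _ : Fin m => Cm n) T) (ξ ∘ σ)
      have h5 : (g : MultilinearMap ℂ (fun _ : Fin m => Cm n) T) (ξ ∘ σ) =
          Equiv.Perm.sign σ • g ξ := g.map_perm ξ σ
      have h6 : ∑ v : Fin m → Fin n, (∏ i, ξ (σ i) (v i)) • g (fun i => Pi.single (v i) 1) =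
          Equiv.Perm.sign σ • g ξ := by
        rw [← h5, h4]
        rfl
      rw [h6]
      rcases Int.units_eq_one_or (Equiv.Perm.sign σ) with h | h <;> simp [h]
    rw [Finset.sum_congr rfl fun σ _ => h3 σ, Finset.sum_const, Finset.card_univ,
      Fintype.card_perm, Fintype.card_fin, ← Nat.cast_smul_eq_nsmul ℂ]
  rw [h1, smul_smul, inv_mul_cancel₀ (fac_ne m), one_smul]

/-- an alternating map on `ℂⁿ` is continuous -/
def toC (g : Cm n [⋀^Fin m]→ₗ[ℂ] T) : Cm n [⋀^Fin m]→L[ℂ] T :=
  Rm n m T fun v => g fun i => Pi.single (v i) 1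

theorem toC_apply (g : Cm n [⋀^Fin m]→ₗ[ℂ] T) (ξ : Fin m → Cm n) : toC g ξ = g ξ := by
  show RmL n m T (fun v => g fun i => Pi.single (v i) 1) ξ = g ξ
  rw [RmL_comp]

/-- analyticity from the components -/
theorem an_of {P : Type*} [NormedAddCommGroup P] [NormedSpace ℂ P]
    {g : P → Cm n [⋀^Fin m]→L[ℂ] T} {x : P}
    (h : ∀ v : Fin m → Fin n, AnalyticAt ℂ (fun y => g y fun i => Pi.single (v i) 1) x) :
    AnalyticAt ℂ g x := by
  have h1 : g = fun y => Rm n m T fun v => g y fun i => Pi.single (v i) 1 := by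
    funext y
    ext ξ
    have h2 := toC_apply ((g y).toAlternatingMap) ξ
    exact h2.symm
  rw [h1]
  exact ((Rm n m T).analyticAt _).comp (AnalyticAt.pi h)

/-- application is analytic -/
theorem an_apply {P : Type*} [NormedAddCommGroup P] [NormedSpace ℂ P]
    {g : P → Cm n [⋀^Fin m]→L[ℂ] T} {x : P} (h : AnalyticAt ℂ g x) (ξ : Fin m → Cm n) :
    AnalyticAt ℂ (fun y => g y ξ) x :=
  ((ContinuousAlternatingMap.apply ℂ (Cm n) T ξ).analyticAt _).comp h

end

section
variable {n q k : ℕ} {W T : Type*} [NormedAddCommGroup W] [NormedSpace ℂ W]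
  [NormedAddCommGroup T] [NormedSpace ℂ T]

/-- `dL` as an alternating map -/
def dLA (L : Cm n →L[ℂ] Cm q) : Cm n [⋀^Fin q]→ₗ[ℂ] ℂ :=
  (Matrix.detRowAlternating (n := Fin q) (R := ℂ)).compLinearMap (L : Cm n →ₗ[ℂ] Cm q)

theorem dLA_apply (L : Cm n →L[ℂ] Cm q) (w : Fin q → Cm n) : dLA L w = dL L w := by
  show (Matrix.of fun i j => L (w i) j).det = (Matrix.of fun i j => L (w j) i).det
  rw [← Matrix.det_transpose]
  rfl

/-- the multilinear map whose alternatization is `q! gf` -/
def gmul (k : ℕ) (L : Cm n →L[ℂ] Cm q) (Θ : Cm n →L[ℂ] W) (μ : MultilinearMap ℂ (fun _ : Fin k => W) T) :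
    MultilinearMap ℂ (fun _ : Fin (q + k) => Cm n) T where
  toFun ξ := dLA L (fun i => ξ (Fin.castAdd k i)) • μ fun a => Θ (ξ (Fin.natAdd q a))
  map_update_add' := by
    intro inst ξ l x y
    obtain rfl : inst = instDecidableEqFin _ := Subsingleton.elim _ _
    refine Fin.addCases (fun i => ?_) (fun a => ?_) l
    · have e1 : ∀ z, (fun i' => Function.update ξ (Fin.castAdd k i) z (Fin.castAdd k i')) =
          Function.update (fun i' => ξ (Fin.castAdd k i')) i z := by
        intro z
        funext i'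
        by_cases h : i' = i
        · subst h; simp
        · rw [Function.update_of_ne h, Function.update_of_ne]
          intro h'
          exact h (Fin.castAdd_injective _ _ h')
      have e2 : ∀ z, (fun a => Θ (Function.update ξ (Fin.castAdd k i) z (Fin.natAdd q a))) =
          fun a => Θ (ξ (Fin.natAdd q a)) := by
        intro z
        funext a
        rw [Function.update_of_ne]
        intro h'
        have := congrArg Fin.val h'
        simp at this
        omega
      rw [e1, e1, e1, e2, e2, e2, AlternatingMap.map_update_add, add_smul]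
    · have e1 : ∀ z, (fun i' => Function.update ξ (Fin.natAdd q a) z (Fin.castAdd k i')) =
          fun i' => ξ (Fin.castAdd k i') := by
        intro z
        funext i'
        rw [Function.update_of_ne]
        intro h'
        have := congrArg Fin.val h'
        simp at this
        omega
      have e2 : ∀ z, (fun a' => Θ (Function.update ξ (Fin.natAdd q a) z (Fin.natAdd q a'))) =
          Function.update (fun a' => Θ (ξ (Fin.natAdd q a'))) a (Θ z) := by
        intro z
        funext a'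
        by_cases h : a' = a
        · subst h; simp
        · rw [Function.update_of_ne h, Function.update_of_ne]
          intro h'
          exact h (Fin.natAdd_injective _ _ h')
      rw [e1, e1, e1, e2, e2, e2, map_add, MultilinearMap.map_update_add, smul_add]
  map_update_smul' := by
    intro inst ξ l c x
    obtain rfl : inst = instDecidableEqFin _ := Subsingleton.elim _ _
    refine Fin.addCases (fun i => ?_) (fun a => ?_) l
    · have e1 : ∀ z, (fun i' => Function.update ξ (Fin.castAdd k i) z (Fin.castAdd k i')) =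
          Function.update (fun i' => ξ (Fin.castAdd k i')) i z := by
        intro z
        funext i'
        by_cases h : i' = i
        · subst h; simp
        · rw [Function.update_of_ne h, Function.update_of_ne]
          intro h'
          exact h (Fin.castAdd_injective _ _ h')
      have e2 : ∀ z, (fun a => Θ (Function.update ξ (Fin.castAdd k i) z (Fin.natAdd q a))) =
          fun a => Θ (ξ (Fin.natAdd q a)) := by
        intro z
        funext a
        rw [Function.update_of_ne]
        intro h'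
        have := congrArg Fin.val h'
        simp at this
        omega
      rw [e1, e1, e2, e2, AlternatingMap.map_update_smul, smul_assoc]
    · have e1 : ∀ z, (fun i' => Function.update ξ (Fin.natAdd q a) z (Fin.castAdd k i')) =
          fun i' => ξ (Fin.castAdd k i') := by
        intro z
        funext i'
        rw [Function.update_of_ne]
        intro h'
        have := congrArg Fin.val h'
        simp at this
        omega
      have e2 : ∀ z, (fun a' => Θ (Function.update ξ (Fin.natAdd q a) z (Fin.natAdd q a'))) =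
          Function.update (fun a' => Θ (ξ (Fin.natAdd q a'))) a (Θ z) := by
        intro z
        funext a'
        by_cases h : a' = a
        · subst h; simp
        · rw [Function.update_of_ne h, Function.update_of_ne]
          intro h'
          exact h (Fin.natAdd_injective _ _ h')
      rw [e1, e1, e2, e2, map_smul, MultilinearMap.map_update_smul, smul_comm]

/-- `gf` as an alternating map -/
def gfA (k : ℕ) (L : Cm n →L[ℂ] Cm q) (Θ : Cm n →L[ℂ] W)
    (μ : MultilinearMap ℂ (fun _ : Fin k => W) T) : Cm n [⋀^Fin (q + k)]→L[ℂ] T :=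
  toC (((q.factorial : ℂ)⁻¹) • MultilinearMap.alternatization (gmul k L Θ μ))

theorem gfA_apply (L : Cm n →L[ℂ] Cm q) (Θ : Cm n →L[ℂ] W)
    (μ : MultilinearMap ℂ (fun _ : Fin k => W) T) (ξ : Fin (q + k) → Cm n) :
    gfA k L Θ μ ξ = gf k L Θ μ ξ := by
  rw [gfA, toC_apply, AlternatingMap.smul_apply, MultilinearMap.alternatization_apply, gf_eq_gm]
  unfold gm
  congr 1
  refine Finset.sum_congr rfl fun σ _ => ?_
  have h1 : (gmul k L Θ μ).domDomCongr σ ξ = dL L (fun i => ξ (σ (Fin.castAdd k i))) •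
      μ fun a => Θ (ξ (σ (Fin.natAdd q a))) := by
    rw [← dLA_apply]
    rfl
  rw [h1]
  rcases Int.units_eq_one_or (Equiv.Perm.sign σ) with h | h <;> simp [h]

/-- homogeneity in `Θ` -/
theorem gf_smul (L : Cm n →L[ℂ] Cm q) (Θ : Cm n →L[ℂ] W) (c : ℂ)
    (μ : MultilinearMap ℂ (fun _ : Fin k => W) T) (ξ : Fin (q + k) → Cm n) :
    gf k L (c • Θ) μ ξ = c ^ k • gf k L Θ μ ξ := by
  rw [gf_eq_gm, gf_eq_gm]
  unfold gm
  rw [smul_comm (c ^ k)]
  congr 1
  rw [Finset.smul_sum]
  refine Finset.sum_congr rfl fun σ _ => ?_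
  have h1 : (μ fun a => (c • Θ : Cm n →L[ℂ] W) (ξ (σ (Fin.natAdd q a)))) =
      c ^ k • μ fun a => Θ (ξ (σ (Fin.natAdd q a))) := by
    have := μ.map_smul_univ (fun _ => c) fun a => Θ (ξ (σ (Fin.natAdd q a)))
    rw [Finset.prod_const, Finset.card_univ, Fintype.card_fin] at this
    exact this
  rw [h1, smul_comm (c ^ k), smul_comm (c ^ k)]

/-- analytic dependence of `dL` -/
theorem an_dL {P : Type*} [NormedAddCommGroup P] [NormedSpace ℂ P] {L : P → Cm n →L[ℂ] Cm q}
    {x : P} (h : AnalyticAt ℂ L x) (w : Fin q → Cm n) : AnalyticAt ℂ (fun y => dL (L y) w) x := by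
  unfold dL
  simp only [Matrix.det_apply']
  refine Finset.analyticAt_fun_sum _ fun σ _ => ?_
  refine analyticAt_const.mul (Finset.analyticAt_fun_prod _ fun i _ => ?_)
  have h1 : AnalyticAt ℂ (fun y => L y (w i)) x :=
    ((ContinuousLinearMap.apply ℂ (Cm q) (w i)).analyticAt _).comp h
  exact ((ContinuousLinearMap.proj (R := ℂ) (φ := fun _ : Fin q => ℂ) (σ i)).analyticAt _).comp h1

/-- analytic dependence of `gfA` -/
theorem an_gfA {P : Type*} [NormedAddCommGroup P] [NormedSpace ℂ P] {L : P → Cm n →L[ℂ] Cm q}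
    {Θ : P → Cm n →L[ℂ] W} {x : P} (hL : AnalyticAt ℂ L x) (hΘ : AnalyticAt ℂ Θ x)
    (μ : ContinuousMultilinearMap ℂ (fun _ : Fin k => W) T) :
    AnalyticAt ℂ (fun y => gfA k (L y) (Θ y) μ.toMultilinearMap) x := by
  refine an_of fun v => ?_
  simp only [gfA_apply, gf_eq_gm]
  unfold gm
  refine analyticAt_const.smul (Finset.analyticAt_fun_sum _ fun σ _ => ?_)
  refine analyticAt_const.smul ((an_dL hL _).smul ?_)
  have h1 : AnalyticAt ℂ (fun y => fun a : Fin k =>
      Θ y (Pi.single (v (σ (Fin.natAdd q a))) 1 : Cm n)) x :=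
    AnalyticAt.pi fun a =>
      ((ContinuousLinearMap.apply ℂ W (Pi.single (v (σ (Fin.natAdd q a))) 1 : Cm n)).analyticAt
        _).comp hΘ
  exact μ.analyticAt.comp h1

end

end Vale.Agent.P284.H501
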