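import Vale.Agent.P284.H501.Alg2
import Vale.Agent.P284.H500.ExtS

/-!
# P284 (helper501), module EXT: local extension of the forms `O ∧ μ(Θ, …, Θ)` from Theorem A
-/

open scoped Topology ENNReal
open Filter MeasureTheory Set

noncomputable section

namespace Vale.Agent.P284.H501

open Vale.Agent.P272.K

/-- Theorem A of helper500 in `ℂⁿ`, with the relation at the points where `dt` is onto -/
def ThmARStmt : Prop :=
  ∀ (n q : ℕ) (W Z : Type) [NormedAddCommGroup W] [NormedSpace ℂ W] [CompleteSpace W]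
    [NormedAddCommGroup Z] [NormedSpace ℂ Z] [CompleteSpace Z] (t : Cm n → Cm q)
    (S : Cm n → Cm n [⋀^Fin (q + 1)]→L[ℂ] W) (U : Set (Cm n)) (h : Cm n → ℂ) (φ : Cm n → Z)
    (x₀ : Cm n), IsOpen U → (∀ x ∈ U, AnalyticAt ℂ t x) → (∀ x ∈ U, AnalyticAt ℂ S x) →
    (∀ x ∈ U, Function.Surjective (fderiv ℂ t x) → RelP (fderiv ℂ t x) (S x)) →
    H500.Tube volume t S U → (∀ x ∈ U, AnalyticAt ℂ h x) → (∀ x ∈ U, AnalyticAt ℂ φ x) →
    x₀ ∈ U → (∃ᶠ x in 𝓝 x₀, h x ≠ 0) → (∃ᶠ x in 𝓝 x₀, H500.Om t x ≠ 0) →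
    (∀ x ∈ U, H500.Good t S x → ∃ C : ℝ, ∀ᶠ y in 𝓝 x, ‖φ y‖ ≤ C * ‖h y‖) →
    ∃ g : Cm n → Z, AnalyticAt ℂ g x₀ ∧ ∀ᶠ x in 𝓝 x₀, φ x = h x • g x

section
variable {n q k : ℕ} {W T : Type} [NormedAddCommGroup W] [NormedSpace ℂ W]
  [NormedAddCommGroup T] [NormedSpace ℂ T]

theorem surj_of_dL {L : Cm n →L[ℂ] Cm q} {u : Fin q → Cm n} (h : dL L u ≠ 0) :
    Function.Surjective L := by
  by_contra h1
  exact h (dL_not_surj h1 u)

theorem Om_eq (t : Cm n → Cm q) (x : Cm n) (w : Fin q → Cm n) :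
    H500.Om t x w = dL (fderiv ℂ t x) w := rfl

/-- a choice of the minor -/
theorem exists_J {t : Cm n → Cm q} {x₀ : Cm n}
    (h : ∃ᶠ x in 𝓝 x₀, Function.Surjective (fderiv ℂ t x)) :
    ∃ J : Fin q → Fin n, ∃ᶠ x in 𝓝 x₀,
      dL (fderiv ℂ t x) (fun i => Pi.single (J i) 1) ≠ 0 := by
  by_contra hcon
  push Not at hcon
  have h1 : ∀ᶠ x in 𝓝 x₀, ∀ J : Fin q → Fin n,
      dL (fderiv ℂ t x) (fun i => Pi.single (J i) 1) = 0 := by
    rw [eventually_all]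
    intro J
    exact hcon J
  obtain ⟨x, hx1, hx2⟩ := (h.and_eventually h1).exists
  obtain ⟨J, hJ⟩ := dL_ne hx1
  exact hJ (hx2 J)

theorem eq_of_frequently {V : Type*} [NormedAddCommGroup V] {A B : Cm n → V} {x : Cm n}
    (hA : ContinuousAt A x) (hB : ContinuousAt B x) (h : ∃ᶠ z in 𝓝 x, A z = B z) : A x = B x := by
  by_contra hne
  have h1 : ∀ᶠ z in 𝓝 x, A z - B z ≠ 0 := (hA.sub hB).eventually_ne (sub_ne_zero.2 hne)
  obtain ⟨z, hz1, hz2⟩ := (h.and_eventually h1).exists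
  exact hz2 (sub_eq_zero.2 hz1)

/-- **the local extension** -/
theorem loc_main (hA : ThmARStmt) [CompleteSpace W] [CompleteSpace T]
    {t : Cm n → Cm q} {S : Cm n → Cm n [⋀^Fin (q + 1)]→L[ℂ] W} {U : Set (Cm n)} {x₀ : Cm n}
    (hU : IsOpen U) (hUc : IsPreconnected U) (hx₀ : x₀ ∈ U)
    (ht : ∀ x ∈ U, AnalyticAt ℂ t x) (hS : ∀ x ∈ U, AnalyticAt ℂ S x)
    (hrel : ∀ x ∈ U, Function.Surjective (fderiv ℂ t x) → RelP (fderiv ℂ t x) (S x))
    (htube : H500.Tube volume t S U)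
    (hsurj : ∃ᶠ x in 𝓝 x₀, Function.Surjective (fderiv ℂ t x))
    (μ : ContinuousMultilinearMap ℂ (fun _ : Fin k => W) T) :
    ∃ g : Cm n → Cm n [⋀^Fin (q + k)]→L[ℂ] T, AnalyticAt ℂ g x₀ ∧
      ∀ᶠ x in 𝓝 x₀, Function.Surjective (fderiv ℂ t x) → ∀ Θ, IsW (fderiv ℂ t x) (S x) Θ →
        ∀ ξ, g x ξ = gf k (fderiv ℂ t x) Θ μ ξ := by
  set L : Cm n → Cm n →L[ℂ] Cm q := fun x => fderiv ℂ t x with hLd
  have hL : ∀ x ∈ U, AnalyticAt ℂ L x := fun x hx => (ht x hx).fderiv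
  obtain ⟨J, hJ⟩ := exists_J hsurj
  set e : Fin q → Cm n := fun i => Pi.single (J i) 1 with he
  set h : Cm n → ℂ := fun x => dL (L x) e ^ k with hh
  set φ : Cm n → Cm n [⋀^Fin (q + k)]→L[ℂ] T :=
    fun x => gfA k (L x) (sl (S x) e) μ.toMultilinearMap with hφ
  have hhan : ∀ x ∈ U, AnalyticAt ℂ h x := fun x hx => (an_dL (hL x hx) e).pow k
  have hφan : ∀ x ∈ U, AnalyticAt ℂ φ x := fun x hx => an_gfA (hL x hx) (an_sl (hS x hx) e) μ
  have hhf : ∃ᶠ x in 𝓝 x₀, h x ≠ 0 := hJ.mono fun x hx => pow_ne_zero k hx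
  have hOf : ∃ᶠ x in 𝓝 x₀, H500.Om t x ≠ 0 := by
    refine hJ.mono fun x hx h0 => hx ?_
    have := congrFun h0 e
    exact this
  have hgood : ∀ x ∈ U, H500.Good t S x → ∃ C : ℝ, ∀ᶠ y in 𝓝 x, ‖φ y‖ ≤ C * ‖h y‖ := by
    rintro x hx ⟨Θ, hΘ, hΘe⟩
    have h1 : AnalyticAt ℂ (fun y => gfA k (L y) (Θ y) μ.toMultilinearMap) x :=
      an_gfA (hL x hx) hΘ μ
    refine ⟨‖gfA k (L x) (Θ x) μ.toMultilinearMap‖ + 1, ?_⟩
    filter_upwards [h1.continuousAt.norm.eventually_lt_const (lt_add_one _), hΘe] with y hy1 hy2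
    have h3 : φ y = h y • gfA k (L y) (Θ y) μ.toMultilinearMap := by
      ext ζ
      rw [hφ, ContinuousAlternatingMap.smul_apply, gfA_apply, gfA_apply]
      exact gf_sl (fun w η hη => hy2 w η hη) μ.toMultilinearMap e ζ
    rw [h3, norm_smul, mul_comm]
    exact mul_le_mul_of_nonneg_right hy1.le (norm_nonneg _)
  obtain ⟨g, hg1, hg2⟩ := hA n q W (Cm n [⋀^Fin (q + k)]→L[ℂ] T) t S U h φ x₀ hU ht hS hrel htube
    hhan hφan hx₀ hhf hOf hgood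
  refine ⟨g, hg1, ?_⟩
  filter_upwards [hU.mem_nhds hx₀, hg1.eventually_analyticAt, eventually_eventually_nhds.2 hg2]
    with x hxU hgx hφx hsx Θ hΘ ξ
  obtain ⟨J', hJ'⟩ := dL_ne hsx
  set e' : Fin q → Cm n := fun i => Pi.single (J' i) 1 with he'
  set Θ' : Cm n → (Cm n →L[ℂ] W) := fun z => (dL (L z) e')⁻¹ • sl (S z) e' with hΘ'
  have hd : AnalyticAt ℂ (fun z => dL (L z) e') x := an_dL (hL x hxU) e'
  have hΘ'an : AnalyticAt ℂ Θ' x := (hd.inv hJ').smul (an_sl (hS x hxU) e')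
  have hAan : AnalyticAt ℂ (fun z => gfA k (L z) (Θ' z) μ.toMultilinearMap) x :=
    an_gfA (hL x hxU) hΘ'an μ
  -- `h` is not locally zero at `x`
  have hhx : ∃ᶠ z in 𝓝 x, h z ≠ 0 := by
    intro hcon
    have h1 : ∀ᶠ z in 𝓝 x, h z = 0 := hcon.mono fun z hz => not_not.1 hz
    have h2 : EqOn h 0 U := AnalyticOnNhd.eqOn_zero_of_preconnected_of_eventuallyEq_zero
      (fun z hz => hhan z hz) hUc hxU h1
    obtain ⟨z, hz1, hz2⟩ := (hhf.and_eventually (hU.mem_nhds hx₀)).exists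
    exact hz1 (h2 hz2)
  have key : gfA k (L x) (Θ' x) μ.toMultilinearMap = g x := by
    refine eq_of_frequently hAan.continuousAt hgx.continuousAt ?_
    have h1 : ∀ᶠ z in 𝓝 x, dL (L z) e' ≠ 0 := hd.continuousAt.eventually_ne hJ'
    refine (hhx.and_eventually (h1.and ((hU.eventually_mem hxU).and hφx))).mono ?_
    rintro z ⟨hz1, hz2, hzU, hz3⟩
    have hsz : Function.Surjective (L z) := surj_of_dL hz2
    have hR := hrel z hzU hsz
    have hW := isW_sl hR hsz hz2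
    have h3 : φ z = h z • gfA k (L z) (Θ' z) μ.toMultilinearMap := by
      ext ζ
      rw [hφ, ContinuousAlternatingMap.smul_apply, gfA_apply, gfA_apply]
      exact gf_sl (fun w η hη => hW.snoc w hη) μ.toMultilinearMap e ζ
    rw [h3] at hz3
    exact smul_right_injective _ hz1 hz3
  rw [← key, gfA_apply]
  exact gf_congr_ker (L x) hsx (Θ' x) Θ (fun η hη => (isW_sl (hrel x hxU hsx) hsx hJ').eq_vert hsx
    hΘ hη) μ.toMultilinearMap ξ

end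

end Vale.Agent.P284.H501
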