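import Mathlib.Analysis.InnerProductSpace.Basic

/-!
# P284 (helper501): geometric steps

Abstract lemma for the flat energy form of (A''). `u j = u (j+1) - 2 ^ j • L (u (j+1))` (implicit Euler
steps of geometric size), `v = u j - u (j+1)` is band-limited: for some `j`, with `s = 2 ^ j`, all of
`ip v v`, `s² ip (L v) (L v)`, `ε⁻¹ H v v`, `ε⁻¹ s² H (L v) (L v)` are at most `C s en v v`.
-/

open Finset

noncomputable section

namespace Vale.Agent.P284.H501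

variable {V : Type*} [AddCommGroup V] [Module ℝ V]

/-- polarisation of a square -/
lemma form_add (B : V →ₗ[ℝ] V →ₗ[ℝ] ℝ) (hs : ∀ f h, B f h = B h f) (f h : V) :
    B (f + h) (f + h) = B f f + 2 * B f h + B h h := by
  simp only [map_add, LinearMap.add_apply]
  rw [hs h f]
  ring

lemma form_smul (B : V →ₗ[ℝ] V →ₗ[ℝ] ℝ) (c : ℝ) (f : V) : B (c • f) (c • f) = c ^ 2 * B f f := by
  simp only [map_smul, LinearMap.smul_apply, smul_eq_mul]
  ring

lemma form_add_le (B : V →ₗ[ℝ] V →ₗ[ℝ] ℝ) (hs : ∀ f h, B f h = B h f) (h0 : ∀ f, 0 ≤ B f f)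
    {c : ℝ} (hc : 0 < c) (f h : V) :
    B (f + h) (f + h) ≤ (1 + c) * B f f + (1 + c⁻¹) * B h h := by
  have h1 := h0 (c • f - h)
  have h2 : B (c • f - h) (c • f - h) = c ^ 2 * B f f - 2 * c * B f h + B h h := by
    simp only [map_sub, LinearMap.sub_apply, map_smul, LinearMap.smul_apply, smul_eq_mul]
    rw [hs h f]
    ring
  rw [h2] at h1
  rw [form_add B hs]
  have h3 : 2 * B f h ≤ c * B f f + c⁻¹ * B h h := by
    have h4 : 0 ≤ c⁻¹ * (c ^ 2 * B f f - 2 * c * B f h + B h h) :=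
      mul_nonneg (inv_nonneg.2 hc.le) h1
    have h5 : c⁻¹ * (c ^ 2 * B f f - 2 * c * B f h + B h h) =
        c * B f f - 2 * B f h + c⁻¹ * B h h := by
      field_simp
    rw [h5] at h4
    linarith
  linarith

lemma form_sub_two_le (B : V →ₗ[ℝ] V →ₗ[ℝ] ℝ) (hs : ∀ f h, B f h = B h f) (h0 : ∀ f, 0 ≤ B f f)
    (f h : V) : B (f - (2 : ℝ) • h) (f - (2 : ℝ) • h) ≤ 2 * B f f + 8 * B h h := by
  have h1 := form_add_le B hs h0 one_pos f (-((2 : ℝ) • h))
  rw [← sub_eq_add_neg] at h1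
  have h2 : B (-((2 : ℝ) • h)) (-((2 : ℝ) • h)) = 4 * B h h := by
    simp only [map_neg, LinearMap.neg_apply, map_smul, LinearMap.smul_apply, smul_eq_mul]
    ring
  rw [h2] at h1
  linarith

/-- Cauchy–Schwarz for a nonnegative form, in the form `|B f h| ≤ √(B f f * B h h)` squared. -/
lemma form_cs (B : V →ₗ[ℝ] V →ₗ[ℝ] ℝ) (hs : ∀ f h, B f h = B h f) (h0 : ∀ f, 0 ≤ B f f)
    (f h : V) : B f h ^ 2 ≤ B f f * B h h := by
  rcases (h0 h).eq_or_lt with h1 | h1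
  · -- `B h h = 0`
    have h2 : B f h = 0 := by
      by_contra hne
      have h3 : ∀ t : ℝ, 0 ≤ B f f + 2 * t * B f h := by
        intro t
        have h4 := h0 (f + t • h)
        rw [form_add B hs, form_smul, ← h1] at h4
        simp only [map_smul, smul_eq_mul] at h4
        linarith
      have h5 := h3 (-(B f f + 1) / (2 * B f h))
      have h6 : 2 * (-(B f f + 1) / (2 * B f h)) * B f h = -(B f f + 1) := by
        field_simp
      rw [h6] at h5
      linarith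
    rw [h2, ← h1]
    simp
  · have h2 := h0 ((B h h) • f - (B f h) • h)
    have h3 : B ((B h h) • f - (B f h) • h) ((B h h) • f - (B f h) • h) =
        (B h h) * ((B f f) * (B h h) - (B f h) ^ 2) := by
      simp only [map_sub, LinearMap.sub_apply, map_smul, LinearMap.smul_apply, smul_eq_mul]
      rw [hs h f]
      ring
    rw [h3] at h2
    have h4 := nonneg_of_mul_nonneg_right h2 h1
    linarith

/-- **Geometric steps.** -/
theorem geo (ip en H : V →ₗ[ℝ] V →ₗ[ℝ] ℝ) (L : V →ₗ[ℝ] V) (M : V → ℝ)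
    (ips : ∀ f h, ip f h = ip h f) (ip0 : ∀ f, 0 ≤ ip f f)
    (ens : ∀ f h, en f h = en h f) (en0 : ∀ f, 0 ≤ en f f)
    (Hs : ∀ f h, H f h = H h f) (H0 : ∀ f, 0 ≤ H f f)
    (hL : ∀ f h, ip (L f) h = -en f h) (hM0 : ∀ f, 0 ≤ M f) (hM : ∀ f, M f ≤ -H (L f) f)
    (K : ℕ) (u : ℕ → V) (hu : ∀ j, j ≤ K → u j = u (j + 1) - (2 : ℝ) ^ j • L (u (j + 1)))
    (ε : ℝ) (hε : 0 < ε) (hε1 : ε ≤ 1) (hpos : 0 < ip (u 0) (u 0))
    (hK : ip (u K) (u K) ≤ ip (u 0) (u 0) / 20)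
    (hen : en (u 0) (u 0) ≤ ε * ip (u 0) (u 0)) (hH : H (u 0) (u 0) ≤ ε * ip (u 0) (u 0)) :
    ∃ j, 1 ≤ j ∧ j ≤ K ∧
      ip (u j - u (j + 1)) (u j - u (j + 1)) +
        ((2 : ℝ) ^ j) ^ 2 * ip (L (u j - u (j + 1))) (L (u j - u (j + 1))) +
        ε⁻¹ * (H (u j - u (j + 1)) (u j - u (j + 1)) +
          ((2 : ℝ) ^ j) ^ 2 * H (L (u j - u (j + 1))) (L (u j - u (j + 1)))) +
        ip (u 0) (u 0) / (K + 1) ≤
      1840 * ((2 : ℝ) ^ j * en (u j - u (j + 1)) (u j - u (j + 1))) := by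
  set d : ℕ → V := fun j => u j - u (j + 1) with hd
  have hs : ∀ j : ℕ, (0 : ℝ) < 2 ^ j := fun j => by positivity
  -- `d j = - 2 ^ j L u (j + 1)`
  have hdL : ∀ j ≤ K, d j = -((2 : ℝ) ^ j • L (u (j + 1))) := by
    intro j hj
    show u j - u (j + 1) = _
    conv_lhs => rw [hu j hj]
    abel
  have hLu : ∀ j ≤ K, (2 : ℝ) ^ j • L (u (j + 1)) = -d j := by
    intro j hj
    rw [hdL j hj, neg_neg]
  have hud : ∀ j, u j = u (j + 1) + d j := fun j => by
    show u j = u (j + 1) + (u j - u (j + 1))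
    abel
  -- en (L f) h = - ip (L f) (L h)
  have henL : ∀ f h, en f (L h) = -ip (L f) (L h) := fun f h => by
    rw [hL f (L h)]
    ring
  -- the three identities
  have hN : ∀ j ≤ K, ip (u j) (u j) =
      ip (u (j + 1)) (u (j + 1)) + (2 : ℝ) ^ (j + 1) * en (u (j + 1)) (u (j + 1)) +
        ip (d j) (d j) := by
    intro j hj
    have h1 : ip (u (j + 1)) (d j) = (2 : ℝ) ^ j * en (u (j + 1)) (u (j + 1)) := by
      rw [ips, hdL j hj, map_neg, LinearMap.neg_apply, map_smul, LinearMap.smul_apply,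
        smul_eq_mul, hL]
      ring
    conv_lhs => rw [hud j, form_add ip ips, h1]
    rw [pow_succ]
    ring
  have hE : ∀ j ≤ K, (2 : ℝ) ^ j * en (u j) (u j) =
      (2 : ℝ) ^ j * en (u (j + 1)) (u (j + 1)) + 2 * ip (d j) (d j) +
        (2 : ℝ) ^ j * en (d j) (d j) := by
    intro j hj
    have h1 : (2 : ℝ) ^ j * en (u (j + 1)) (d j) = ip (d j) (d j) := by
      have h2 : ip (d j) (d j) = ((2 : ℝ) ^ j) ^ 2 * ip (L (u (j + 1))) (L (u (j + 1))) := by
        conv_lhs => rw [hdL j hj]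
        simp only [map_neg, LinearMap.neg_apply, map_smul, LinearMap.smul_apply, smul_eq_mul]
        ring
      rw [h2, hdL j hj, map_neg, map_smul, smul_eq_mul, henL]
      ring
    conv_lhs => rw [hud j, form_add en ens]
    linear_combination 2 * h1
  have hHj : ∀ j ≤ K, H (u (j + 1)) (u (j + 1)) + H (d j) (d j) ≤ H (u j) (u j) := by
    intro j hj
    have h1 : 0 ≤ H (u (j + 1)) (d j) := by
      rw [Hs, hdL j hj, map_neg, LinearMap.neg_apply, map_smul, LinearMap.smul_apply, smul_eq_mul,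
        ← mul_neg]
      exact mul_nonneg (hs j).le ((hM0 _).trans (hM _))
    rw [hud j, form_add H Hs]
    have : u (j + 1) + d j = u j := (hud j).symm
    linarith
  -- abbreviations
  set a : ℕ → ℝ := fun j => (2 : ℝ) ^ j * en (u j) (u j) with ha
  set D : ℕ → ℝ := fun j => ip (d j) (d j) with hD
  set N : ℕ → ℝ := fun j => ip (u j) (u j) with hNd
  set δ : ℕ → ℝ := fun j => (2 : ℝ) ^ j * en (d j) (d j) with hδ
  have ha0 : ∀ j, 0 ≤ a j := fun j => mul_nonneg (hs j).le (en0 _)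
  have hD0 : ∀ j, 0 ≤ D j := fun j => ip0 _
  have hN0 : ∀ j, 0 ≤ N j := fun j => ip0 _
  have hδ0 : ∀ j, 0 ≤ δ j := fun j => mul_nonneg (hs j).le (en0 _)
  have hNa : ∀ j ≤ K, N j = N (j + 1) + a (j + 1) + D j := fun j hj => hN j hj
  have hDa : ∀ j ≤ K, 2 * D j ≤ a j := by
    intro j hj
    have h1 := hE j hj
    have h2 : 0 ≤ (2 : ℝ) ^ j * en (u (j + 1)) (u (j + 1)) := mul_nonneg (hs j).le (en0 _)
    have h3 := hδ0 j
    show 2 * ip (d j) (d j) ≤ (2 : ℝ) ^ j * en (u j) (u j)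
    simp only [hδ] at h3
    linarith
  have haa : ∀ j ≤ K, a j ≤ 3 / 4 * a (j + 1) + 3 * δ j := by
    intro j _
    have h1 := form_add_le en ens en0 (c := 1 / 2) (by norm_num) (u (j + 1)) (d j)
    rw [← hud j] at h1
    have h2 := mul_le_mul_of_nonneg_left h1 (hs j).le
    show (2 : ℝ) ^ j * en (u j) (u j) ≤
      3 / 4 * ((2 : ℝ) ^ (j + 1) * en (u (j + 1)) (u (j + 1))) + 3 * ((2 : ℝ) ^ j * en (d j) (d j))
    rw [pow_succ]
    have h3 : (1 + (1 / 2 : ℝ)) = 3 / 2 := by norm_num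
    have h4 : (1 + (1 / 2 : ℝ)⁻¹) = 3 := by norm_num
    rw [h3, h4] at h2
    linarith
  -- potential
  have hpot : ∀ j ≤ K, N j + 11 / 2 * a j ≤ N (j + 1) + 11 / 2 * a (j + 1) + 18 * δ j := by
    intro j hj
    have h1 := hNa j hj
    have h2 := hDa j hj
    have h3 := haa j hj
    linarith
  have hsum : ∀ j, 1 ≤ j → j ≤ K + 1 →
      N 1 + 11 / 2 * a 1 ≤ N j + 11 / 2 * a j + 18 * ∑ i ∈ Ico 1 j, δ i := by
    intro j hj
    induction j, hj using Nat.le_induction with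
    | base => intro _; simp
    | succ j hj ih =>
      intro hjK
      rw [Finset.sum_Ico_succ_top hj]
      have h1 := ih (by omega)
      have h2 := hpot j (by omega)
      linarith
  have hK1 : 1 ≤ K := by
    rcases Nat.eq_zero_or_pos K with h | h
    · subst h
      have : N 0 ≤ N 0 / 20 := hK
      have h2 : 0 < N 0 := hpos
      linarith
    · exact h
  set T : ℝ := ∑ i ∈ Ico 1 (K + 1), δ i with hT
  have hT1 : N 0 ≤ 80 * T := by
    have h1 := hsum (K + 1) (by omega) le_rfl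
    have h2 := hNa K le_rfl
    have h3 := hNa 0 (Nat.zero_le _)
    have h4 := hDa 0 (Nat.zero_le _)
    have h5 : a 0 ≤ ε * N 0 := by
      show (2 : ℝ) ^ 0 * en (u 0) (u 0) ≤ ε * ip (u 0) (u 0)
      rw [pow_zero, one_mul]
      exact hen
    have h6 : ε * N 0 ≤ N 0 := by
      have := mul_le_mul_of_nonneg_right hε1 (hN0 0)
      linarith
    have h7 : N K ≤ N 0 / 20 := hK
    have h8 := ha0 1
    have h9 := hD0 K
    have h10 := hN0 (K + 1)
    simp only [zero_add] at h3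
    linarith
  -- upper sums
  have hsN : ∀ j, j ≤ K + 1 → ∑ i ∈ range j, D i ≤ N 0 - N j := by
    intro j
    induction j with
    | zero => intro _; simp
    | succ j ih =>
      intro hj
      rw [Finset.sum_range_succ]
      have h1 := ih (by omega)
      have h2 := hNa j (by omega)
      have h3 := ha0 (j + 1)
      linarith
  have hsH : ∀ j, j ≤ K + 1 → ∑ i ∈ range j, H (d i) (d i) ≤ H (u 0) (u 0) - H (u j) (u j) := by
    intro j
    induction j with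
    | zero => intro _; simp
    | succ j ih =>
      intro hj
      rw [Finset.sum_range_succ]
      have h1 := ih (by omega)
      have h2 := hHj j (by omega)
      linarith
  -- shifted sums
  have hshift : ∀ F : ℕ → ℝ, (∀ i, 0 ≤ F i) → ∀ B, ∑ i ∈ range (K + 1), F i ≤ B →
      ∑ i ∈ Ico 1 (K + 1), F i ≤ B ∧ ∑ i ∈ Ico 1 (K + 1), F (i - 1) ≤ B := by
    intro F hF B hB
    constructor
    · refine le_trans (Finset.sum_le_sum_of_subset_of_nonneg ?_ fun i _ _ => hF i) hB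
      intro i hi
      rw [Finset.mem_Ico] at hi
      exact Finset.mem_range.2 hi.2
    · have h1 : ∑ i ∈ Ico 1 (K + 1), F (i - 1) = ∑ i ∈ range K, F i := by
        rw [Finset.sum_Ico_eq_sum_range]
        simp only [Nat.add_sub_cancel, Nat.add_sub_cancel_left]
      rw [h1]
      refine le_trans (Finset.sum_le_sum_of_subset_of_nonneg ?_ fun i _ _ => hF i) hB
      intro i hi
      rw [Finset.mem_range] at hi ⊢
      omega
  obtain ⟨hD1, hD2⟩ := hshift D hD0 (N 0) (by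
    have := hsN (K + 1) le_rfl
    have h2 := hN0 (K + 1)
    linarith)
  obtain ⟨hH1, hH2⟩ := hshift (fun i => H (d i) (d i)) (fun i => H0 _) (ε * N 0) (by
    have := hsH (K + 1) le_rfl
    have h2 := H0 (u (K + 1))
    have h3 : H (u 0) (u 0) ≤ ε * N 0 := hH
    linarith)
  -- `2 ^ j L (d j) = d j - 2 d (j - 1)`
  have hLd : ∀ j, 1 ≤ j → j ≤ K → (2 : ℝ) ^ j • L (d j) = d j - (2 : ℝ) • d (j - 1) := by
    intro j hj1 hjK
    have h1 := hLu j hjK
    have h2 := hLu (j - 1) (by omega)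
    rw [Nat.sub_add_cancel hj1] at h2
    have h3 : (2 : ℝ) ^ j • L (u j) = (2 : ℝ) • ((2 : ℝ) ^ (j - 1) • L (u j)) := by
      rw [smul_smul, ← pow_succ', Nat.sub_add_cancel hj1]
    show (2 : ℝ) ^ j • L (u j - u (j + 1)) = _
    rw [map_sub, smul_sub, h1, h3, h2, smul_neg]
    abel
  have hLq : ∀ (B : V →ₗ[ℝ] V →ₗ[ℝ] ℝ), (∀ f h, B f h = B h f) → (∀ f, 0 ≤ B f f) →
      ∀ j, 1 ≤ j → j ≤ K → ((2 : ℝ) ^ j) ^ 2 * B (L (d j)) (L (d j)) ≤
        2 * B (d j) (d j) + 8 * B (d (j - 1)) (d (j - 1)) := by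
    intro B hBs hB0 j hj1 hjK
    rw [← form_smul, hLd j hj1 hjK]
    exact form_sub_two_le B hBs hB0 _ _
  -- pigeonhole
  have hε' : (0 : ℝ) ≤ ε⁻¹ := inv_nonneg.2 hε.le
  by_contra hcon
  push Not at hcon
  have hlt : ∑ j ∈ Ico 1 (K + 1), 1840 * δ j < ∑ j ∈ Ico 1 (K + 1),
      (D j + (2 * D j + 8 * D (j - 1)) + ε⁻¹ * (H (d j) (d j) +
        (2 * H (d j) (d j) + 8 * H (d (j - 1)) (d (j - 1)))) + N 0 / (K + 1)) := by
    apply Finset.sum_lt_sum_of_nonempty ⟨1, Finset.mem_Ico.2 ⟨le_rfl, by omega⟩⟩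
    intro j hj
    rw [Finset.mem_Ico] at hj
    refine lt_of_lt_of_le (hcon j hj.1 (by omega)) ?_
    have h1 := hLq ip ips ip0 j hj.1 (by omega)
    have h2 := hLq H Hs H0 j hj.1 (by omega)
    have h3 := mul_le_mul_of_nonneg_left h2 hε'
    show D j + ((2 : ℝ) ^ j) ^ 2 * ip (L (d j)) (L (d j)) + ε⁻¹ * (H (d j) (d j) +
      ((2 : ℝ) ^ j) ^ 2 * H (L (d j)) (L (d j))) + N 0 / (K + 1) ≤ _
    simp only [hD] at h1 ⊢
    have h4 : ε⁻¹ * (H (d j) (d j) + ((2 : ℝ) ^ j) ^ 2 * H (L (d j)) (L (d j))) ≤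
        ε⁻¹ * (H (d j) (d j) + (2 * H (d j) (d j) + 8 * H (d (j - 1)) (d (j - 1)))) := by
      apply mul_le_mul_of_nonneg_left _ hε'
      linarith
    linarith
  have hsumR : ∑ j ∈ Ico 1 (K + 1),
      (D j + (2 * D j + 8 * D (j - 1)) + ε⁻¹ * (H (d j) (d j) +
        (2 * H (d j) (d j) + 8 * H (d (j - 1)) (d (j - 1)))) + N 0 / (K + 1)) ≤ 23 * N 0 := by
    have e1 : ∑ j ∈ Ico 1 (K + 1), (D j + (2 * D j + 8 * D (j - 1)) + ε⁻¹ * (H (d j) (d j) +
        (2 * H (d j) (d j) + 8 * H (d (j - 1)) (d (j - 1)))) + N 0 / (K + 1)) =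
        3 * ∑ j ∈ Ico 1 (K + 1), D j + 8 * ∑ j ∈ Ico 1 (K + 1), D (j - 1) +
          ε⁻¹ * (3 * ∑ j ∈ Ico 1 (K + 1), H (d j) (d j) +
            8 * ∑ j ∈ Ico 1 (K + 1), H (d (j - 1)) (d (j - 1))) +
          ∑ _j ∈ Ico 1 (K + 1), N 0 / (K + 1) := by
      rw [mul_add, Finset.mul_sum, Finset.mul_sum, Finset.mul_sum, Finset.mul_sum, Finset.mul_sum,
        Finset.mul_sum, ← Finset.sum_add_distrib, ← Finset.sum_add_distrib,
        ← Finset.sum_add_distrib, ← Finset.sum_add_distrib]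
      refine Finset.sum_congr rfl fun j _ => ?_
      ring
    rw [e1]
    have e2 : ∑ _j ∈ Ico 1 (K + 1), N 0 / (K + 1) ≤ N 0 := by
      rw [Finset.sum_const, Nat.card_Ico, nsmul_eq_mul]
      simp only [Nat.add_sub_cancel]
      have hK' : (0 : ℝ) < (K : ℝ) + 1 := by positivity
      rw [mul_div_assoc', div_le_iff₀ hK']
      nlinarith [hN0 0]
    have e3 : ε⁻¹ * (3 * ∑ j ∈ Ico 1 (K + 1), H (d j) (d j) +
        8 * ∑ j ∈ Ico 1 (K + 1), H (d (j - 1)) (d (j - 1))) ≤ 11 * N 0 := by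
      have h1 : 3 * ∑ j ∈ Ico 1 (K + 1), H (d j) (d j) +
        8 * ∑ j ∈ Ico 1 (K + 1), H (d (j - 1)) (d (j - 1)) ≤ 11 * (ε * N 0) := by linarith
      calc _ ≤ ε⁻¹ * (11 * (ε * N 0)) := mul_le_mul_of_nonneg_left h1 hε'
        _ = 11 * N 0 := by field_simp
    linarith
  rw [← Finset.mul_sum] at hlt
  linarith

/-- consequences of `geo` in the form used for the flat energy: `v = u j - u (j+1)` and `s = 2 ^ j`
with `en v v > 0`, `s M v ≤ 920 s ε en v v`, `H v v * ip (L v) (L v) ≤ 1840 ^ 2 ε (en v v) ^ 2`. -/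
theorem geo_cor (ip en H : V →ₗ[ℝ] V →ₗ[ℝ] ℝ) (L : V →ₗ[ℝ] V) (M : V → ℝ)
    (ips : ∀ f h, ip f h = ip h f) (ip0 : ∀ f, 0 ≤ ip f f)
    (ens : ∀ f h, en f h = en h f) (en0 : ∀ f, 0 ≤ en f f)
    (Hs : ∀ f h, H f h = H h f) (H0 : ∀ f, 0 ≤ H f f)
    (hL : ∀ f h, ip (L f) h = -en f h) (hM0 : ∀ f, 0 ≤ M f) (hM : ∀ f, M f ≤ -H (L f) f)
    (K : ℕ) (u : ℕ → V) (hu : ∀ j, j ≤ K → u j = u (j + 1) - (2 : ℝ) ^ j • L (u (j + 1)))
    (ε : ℝ) (hε : 0 < ε) (hε1 : ε ≤ 1) (hpos : 0 < ip (u 0) (u 0))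
    (hK : ip (u K) (u K) ≤ ip (u 0) (u 0) / 20)
    (hen : en (u 0) (u 0) ≤ ε * ip (u 0) (u 0)) (hH : H (u 0) (u 0) ≤ ε * ip (u 0) (u 0)) :
    ∃ (j : ℕ) (v : V) (s : ℝ), 1 ≤ j ∧ j ≤ K ∧ v = u j - u (j + 1) ∧ s = (2 : ℝ) ^ j ∧ 0 < en v v ∧
      ip v v ≤ 1840 * (s * en v v) ∧ s ^ 2 * ip (L v) (L v) ≤ 1840 * (s * en v v) ∧
      H v v ≤ 1840 * ε * (s * en v v) ∧ s ^ 2 * H (L v) (L v) ≤ 1840 * ε * (s * en v v) ∧
      M v ≤ 920 * ε * en v v ∧ H v v * ip (L v) (L v) ≤ 1840 ^ 2 * ε * (en v v) ^ 2 := by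
  obtain ⟨j, hj1, hjK, hj⟩ := geo ip en H L M ips ip0 ens en0 Hs H0 hL hM0 hM K u hu ε hε hε1 hpos
    hK hen hH
  set v := u j - u (j + 1) with hv
  set s : ℝ := (2 : ℝ) ^ j with hs
  have hs0 : 0 < s := by positivity
  have hε' : 0 < ε⁻¹ := inv_pos.2 hε
  have h1 := ip0 v
  have h2 : 0 ≤ s ^ 2 * ip (L v) (L v) := mul_nonneg (sq_nonneg _) (ip0 _)
  have h3 := H0 v
  have h4 : 0 ≤ s ^ 2 * H (L v) (L v) := mul_nonneg (sq_nonneg _) (H0 _)
  have h5 : 0 < ip (u 0) (u 0) / (K + 1) := by positivity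
  have h6 : 0 ≤ ε⁻¹ * (H v v + s ^ 2 * H (L v) (L v)) :=
    mul_nonneg hε'.le (add_nonneg h3 h4)
  have h7 : 0 < s * en v v := by linarith
  have h8 : 0 < en v v := (mul_pos_iff_of_pos_left hs0).1 h7
  have h9 : H v v + s ^ 2 * H (L v) (L v) ≤ 1840 * ε * (s * en v v) := by
    have h10 : ε⁻¹ * (H v v + s ^ 2 * H (L v) (L v)) ≤ 1840 * (s * en v v) := by linarith
    have h11 := mul_le_mul_of_nonneg_left h10 hε.le
    rw [← mul_assoc, mul_inv_cancel₀ hε.ne', one_mul] at h11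
    linarith
  have hHv : H v v ≤ 1840 * ε * (s * en v v) := by linarith
  have hHLv : s ^ 2 * H (L v) (L v) ≤ 1840 * ε * (s * en v v) := by linarith
  have hipLv : s ^ 2 * ip (L v) (L v) ≤ 1840 * (s * en v v) := by linarith
  refine ⟨j, v, s, hj1, hjK, rfl, rfl, h8, by linarith, hipLv, hHv, hHLv, ?_, ?_⟩
  · -- `s M v ≤ - s H (L v) v ≤ (H v v + s² H (L v) (L v)) / 2`
    have h10 := H0 (v + s • L v)
    rw [form_add H Hs, form_smul] at h10
    have h11 : H v (s • L v) = s * H (L v) v := by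
      rw [map_smul, smul_eq_mul, Hs]
    rw [h11] at h10
    have h12 := mul_le_mul_of_nonneg_left (hM v) hs0.le
    have h13 : s * M v ≤ s * (920 * ε * en v v) := by linarith
    exact le_of_mul_le_mul_left h13 hs0
  · have h10 : s ^ 2 * (H v v * ip (L v) (L v)) ≤ s ^ 2 * (1840 ^ 2 * ε * (en v v) ^ 2) := by
      calc s ^ 2 * (H v v * ip (L v) (L v)) = H v v * (s ^ 2 * ip (L v) (L v)) := by ring
        _ ≤ (1840 * ε * (s * en v v)) * (1840 * (s * en v v)) :=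
          mul_le_mul hHv hipLv h2 (by positivity)
        _ = s ^ 2 * (1840 ^ 2 * ε * (en v v) ^ 2) := by ring
    exact le_of_mul_le_mul_left h10 (by positivity)

end Vale.Agent.P284.H501
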