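import Vale.Agent.P284.H501.Geo

/-!
# P284 (helper501): geometric steps with errors

As `geo`, but the implicit Euler steps are only solved approximately:
`u j + r j = u (j+1) - 2 ^ j • L (u (j+1))`, the pairings with `r j` being at most `η`.
-/

open Finset

noncomputable section

namespace Vale.Agent.P284.H501

variable {V : Type*} [AddCommGroup V] [Module ℝ V]

/-- the approximate chain -/
structure Chain (ip H : V →ₗ[ℝ] V →ₗ[ℝ] ℝ) (L : V →ₗ[ℝ] V) (K : ℕ) (η : ℝ) (u r : ℕ → V) : Prop where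
  eqn : ∀ j, j ≤ K → u j + r j = u (j + 1) - (2 : ℝ) ^ j • L (u (j + 1))
  e1 : ∀ j, j ≤ K → |ip (u (j + 1)) (r j)| ≤ η
  e2 : ∀ j, j ≤ K → |ip ((2 : ℝ) ^ j • L (u (j + 1))) (r j)| ≤ η
  e3 : ∀ j, j ≤ K → ip (r j) (r j) ≤ η
  e4 : ∀ j, j ≤ K → ∀ i, i ≤ K → |H (u (i + 1)) (r j)| ≤ η

/-- **Geometric steps with errors.** -/
theorem geoE (ip en H : V →ₗ[ℝ] V →ₗ[ℝ] ℝ) (L : V →ₗ[ℝ] V) (M : V → ℝ)
    (ips : ∀ f h, ip f h = ip h f) (ip0 : ∀ f, 0 ≤ ip f f)
    (ens : ∀ f h, en f h = en h f) (en0 : ∀ f, 0 ≤ en f f)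
    (Hs : ∀ f h, H f h = H h f) (H0 : ∀ f, 0 ≤ H f f)
    (hL : ∀ f h, ip (L f) h = -en f h) (hM0 : ∀ f, 0 ≤ M f) (hM : ∀ f, M f ≤ -H (L f) f)
    (K : ℕ) (u r : ℕ → V) (η : ℝ) (hc : Chain ip H L K η u r)
    (ε : ℝ) (hε : 0 < ε) (hε1 : ε ≤ 1) (hpos : 0 < ip (u 0) (u 0))
    (hη : 800 * ((K + 1) * η) ≤ ε * ip (u 0) (u 0))
    (hK : ip (u K) (u K) ≤ ip (u 0) (u 0) / 20)
    (hen : en (u 0) (u 0) ≤ ε * ip (u 0) (u 0)) (hH : H (u 0) (u 0) ≤ ε * ip (u 0) (u 0)) :
    ∃ j, 1 ≤ j ∧ j ≤ K ∧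
      ip (u j - u (j + 1)) (u j - u (j + 1)) +
        ((2 : ℝ) ^ j) ^ 2 * ip (L (u j - u (j + 1))) (L (u j - u (j + 1))) +
        ε⁻¹ * (H (u j - u (j + 1)) (u j - u (j + 1)) + (2 : ℝ) ^ j * M (u j - u (j + 1))) +
        ip (u 0) (u 0) / (K + 1) ≤
      2000 * ((2 : ℝ) ^ j * en (u j - u (j + 1)) (u j - u (j + 1))) := by
  set d : ℕ → V := fun j => u j - u (j + 1) with hd
  have hs : ∀ j : ℕ, (0 : ℝ) < 2 ^ j := fun j => by positivity
  have hη0 : 0 ≤ η := (abs_nonneg _).trans (hc.e1 0 (Nat.zero_le _))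
  have hKη : (K : ℝ) * η + η ≤ ε * ip (u 0) (u 0) / 800 := by linarith
  have hεN : ε * ip (u 0) (u 0) ≤ ip (u 0) (u 0) := by
    have := mul_le_mul_of_nonneg_right hε1 hpos.le
    linarith
  have hKη0 : 0 ≤ (K : ℝ) * η := by positivity
  -- `e j = - 2 ^ j L u (j + 1) = d j + r j`
  set e : ℕ → V := fun j => -((2 : ℝ) ^ j • L (u (j + 1))) with he
  have hed : ∀ j ≤ K, d j = e j - r j := by
    intro j hj
    have h1 := hc.eqn j hj
    show u j - u (j + 1) = -((2 : ℝ) ^ j • L (u (j + 1))) - r j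
    have h2 : u j = u (j + 1) - (2 : ℝ) ^ j • L (u (j + 1)) - r j := by
      rw [← h1]; abel
    rw [h2]
    abel
  have hud : ∀ j, u j = u (j + 1) + d j := fun j => by
    show u j = u (j + 1) + (u j - u (j + 1))
    abel
  have henL : ∀ f h, en f (L h) = -ip (L f) (L h) := fun f h => by
    rw [hL f (L h)]
    ring
  have her : ∀ j ≤ K, |ip (e j) (r j)| ≤ η := by
    intro j hj
    have h1 := hc.e2 j hj
    rw [he]
    simp only [map_neg, LinearMap.neg_apply, abs_neg]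
    exact h1
  -- ip (d j) (d j) = ip (e j) (e j) - 2 ip (e j) (r j) + ip (r j) (r j)
  have hDe : ∀ j ≤ K, ip (d j) (d j) = ip (e j) (e j) - 2 * ip (e j) (r j) + ip (r j) (r j) := by
    intro j hj
    rw [hed j hj]
    simp only [map_sub, LinearMap.sub_apply]
    rw [ips (r j) (e j)]
    ring
  have hed' : ∀ j ≤ K, ip (e j) (d j) = ip (e j) (e j) - ip (e j) (r j) := by
    intro j hj
    rw [hed j hj, map_sub]
  -- the three identities
  have hN : ∀ j ≤ K, ip (u j) (u j) =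
      ip (u (j + 1)) (u (j + 1)) + (2 : ℝ) ^ (j + 1) * en (u (j + 1)) (u (j + 1)) +
        ip (d j) (d j) - 2 * ip (u (j + 1)) (r j) := by
    intro j hj
    have h1 : ip (u (j + 1)) (d j) = (2 : ℝ) ^ j * en (u (j + 1)) (u (j + 1)) -
        ip (u (j + 1)) (r j) := by
      rw [hed j hj, map_sub, he]
      simp only [map_neg, map_smul, smul_eq_mul]
      rw [ips (u (j + 1)) (L (u (j + 1))), hL]
      ring
    conv_lhs => rw [hud j, form_add ip ips, h1]
    rw [pow_succ]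
    ring
  have hE : ∀ j ≤ K, (2 : ℝ) ^ j * en (u j) (u j) =
      (2 : ℝ) ^ j * en (u (j + 1)) (u (j + 1)) + 2 * ip (e j) (d j) +
        (2 : ℝ) ^ j * en (d j) (d j) := by
    intro j hj
    have h1 : (2 : ℝ) ^ j * en (u (j + 1)) (d j) = ip (e j) (d j) := by
      rw [he]
      simp only [map_neg, LinearMap.neg_apply, map_smul, LinearMap.smul_apply, smul_eq_mul]
      rw [hL]
      ring
    conv_lhs => rw [hud j, form_add en ens]
    linear_combination 2 * h1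
  have hHj : ∀ j ≤ K, H (u (j + 1)) (u (j + 1)) + H (d j) (d j) ≤ H (u j) (u j) + 2 * η := by
    intro j hj
    have h1 : -η ≤ H (u (j + 1)) (d j) := by
      rw [hed j hj, map_sub, he]
      simp only [map_neg, map_smul, smul_eq_mul]
      have h2 := abs_le.1 (hc.e4 j hj j hj)
      have h3 : 0 ≤ (2 : ℝ) ^ j * (-H (L (u (j + 1))) (u (j + 1))) :=
        mul_nonneg (hs j).le ((hM0 _).trans (hM _))
      rw [Hs (u (j + 1)) (L (u (j + 1)))]
      linarith [h2.2]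
    have h4 : H (u j) (u j) = H (u (j + 1)) (u (j + 1)) + 2 * H (u (j + 1)) (d j) +
        H (d j) (d j) := by
      conv_lhs => rw [hud j, form_add H Hs]
    linarith
  -- abbreviations
  set a : ℕ → ℝ := fun j => (2 : ℝ) ^ j * en (u j) (u j) with ha
  set D : ℕ → ℝ := fun j => ip (d j) (d j) with hD
  set N : ℕ → ℝ := fun j => ip (u j) (u j) with hNd
  set δ : ℕ → ℝ := fun j => (2 : ℝ) ^ j * en (d j) (d j) with hδ
  have ha0 : ∀ j, 0 ≤ a j := fun j => mul_nonneg (hs j).le (en0 _)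
  have hD0 : ∀ j, 0 ≤ D j := fun j => ip0 _
  have hN0 : ∀ j, 0 ≤ N j := fun j => ip0 _
  have hδ0 : ∀ j, 0 ≤ δ j := fun j => mul_nonneg (hs j).le (en0 _)
  have hNa : ∀ j ≤ K, N (j + 1) + a (j + 1) + D j ≤ N j + 2 * η ∧
      N j ≤ N (j + 1) + a (j + 1) + D j + 2 * η := by
    intro j hj
    have h1 := hN j hj
    have h2 := abs_le.1 (hc.e1 j hj)
    have h1' : N j = N (j + 1) + a (j + 1) + D j - 2 * ip (u (j + 1)) (r j) := h1
    constructor
    · linarith [h2.1, h2.2]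
    · linarith [h2.1, h2.2]
  have hDa : ∀ j ≤ K, 2 * D j ≤ a j + 4 * η := by
    intro j hj
    have h1 := hE j hj
    have h2 : 0 ≤ (2 : ℝ) ^ j * en (u (j + 1)) (u (j + 1)) := mul_nonneg (hs j).le (en0 _)
    have h3 := hδ0 j
    have h4 := hDe j hj
    have h5 := hed' j hj
    have h6 := abs_le.1 (her j hj)
    have h7 := hc.e3 j hj
    have h3' : 0 ≤ (2 : ℝ) ^ j * en (d j) (d j) := h3
    show 2 * ip (d j) (d j) ≤ (2 : ℝ) ^ j * en (u j) (u j) + 4 * η
    linarith [h6.1, h6.2]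
  have hee : ∀ j ≤ K, ip (e j) (e j) ≤ D j + 2 * η := by
    intro j hj
    have h4 := hDe j hj
    have h6 := abs_le.1 (her j hj)
    have h7 := ip0 (r j)
    show ip (e j) (e j) ≤ ip (d j) (d j) + 2 * η
    linarith [h6.1, h6.2]
  have haa : ∀ j ≤ K, a j ≤ 3 / 4 * a (j + 1) + 3 * δ j := by
    intro j _
    have h1 := form_add_le en ens en0 (c := 1 / 2) (by norm_num) (u (j + 1)) (d j)
    rw [← hud j] at h1
    have h2 := mul_le_mul_of_nonneg_left h1 (hs j).le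
    show (2 : ℝ) ^ j * en (u j) (u j) ≤
      3 / 4 * ((2 : ℝ) ^ (j + 1) * en (u (j + 1)) (u (j + 1))) + 3 * ((2 : ℝ) ^ j * en (d j) (d j))
    rw [pow_succ]
    have h3 : (1 + (1 / 2 : ℝ)) = 3 / 2 := by norm_num
    have h4 : (1 + (1 / 2 : ℝ)⁻¹) = 3 := by norm_num
    rw [h3, h4] at h2
    linarith
  -- potential
  have hpot : ∀ j ≤ K, N j + 11 / 2 * a j ≤
      N (j + 1) + 11 / 2 * a (j + 1) + 18 * δ j + 4 * η := by
    intro j hj
    have h1 := (hNa j hj).2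
    have h2 := hDa j hj
    have h3 := haa j hj
    linarith
  have hsum : ∀ j, 1 ≤ j → j ≤ K + 1 →
      N 1 + 11 / 2 * a 1 ≤ N j + 11 / 2 * a j + 18 * ∑ i ∈ Ico 1 j, δ i + 4 * ((j : ℝ) * η) := by
    intro j hj
    induction j, hj using Nat.le_induction with
    | base => intro _; simp; linarith
    | succ j hj ih =>
      intro hjK
      rw [Finset.sum_Ico_succ_top hj]
      have h1 := ih (by omega)
      have h2 := hpot j (by omega)
      push_cast
      linarith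
  have hK1 : 1 ≤ K := by
    rcases Nat.eq_zero_or_pos K with h | h
    · subst h
      have : N 0 ≤ N 0 / 20 := hK
      have h2 : 0 < N 0 := hpos
      linarith
    · exact h
  have hK1' : (1 : ℝ) ≤ K := by exact_mod_cast hK1
  set T : ℝ := ∑ i ∈ Ico 1 (K + 1), δ i with hT
  have hN00 : ε * ip (u 0) (u 0) = ε * N 0 := rfl
  have hN01 : ip (u 0) (u 0) = N 0 := rfl
  have hT1 : N 0 ≤ 100 * T := by
    have h1 := hsum (K + 1) (by omega) le_rfl
    have h2 := (hNa K le_rfl).1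
    have h3 := (hNa 0 (Nat.zero_le _)).2
    have h4 := hDa 0 (Nat.zero_le _)
    have h5 : a 0 ≤ ε * N 0 := by
      show (2 : ℝ) ^ 0 * en (u 0) (u 0) ≤ ε * ip (u 0) (u 0)
      rw [pow_zero, one_mul]
      exact hen
    have h7 : N K ≤ N 0 / 20 := hK
    have h8 := ha0 1
    have h9 := hD0 K
    have h10 := hN0 (K + 1)
    push_cast at h1
    rw [← hT] at h1
    simp only [zero_add] at h3
    rw [hN00] at hKη hεN
    rw [hN01] at hεN
    linarith
  -- upper sums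
  have hsN : ∀ j, j ≤ K + 1 → ∑ i ∈ range j, D i ≤ N 0 - N j + 2 * ((j : ℝ) * η) := by
    intro j
    induction j with
    | zero => intro _; simp
    | succ j ih =>
      intro hj
      rw [Finset.sum_range_succ]
      have h1 := ih (by omega)
      have h2 := (hNa j (by omega)).1
      have h3 := ha0 (j + 1)
      push_cast
      linarith
  have hsH : ∀ j, j ≤ K + 1 →
      ∑ i ∈ range j, H (d i) (d i) ≤ H (u 0) (u 0) - H (u j) (u j) + 2 * ((j : ℝ) * η) := by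
    intro j
    induction j with
    | zero => intro _; simp
    | succ j ih =>
      intro hj
      rw [Finset.sum_range_succ]
      have h1 := ih (by omega)
      have h2 := hHj j (by omega)
      push_cast
      linarith
  -- shifted sums
  have hshift : ∀ F : ℕ → ℝ, (∀ i, 0 ≤ F i) → ∀ B, ∑ i ∈ range (K + 1), F i ≤ B →
      ∑ i ∈ Ico 1 (K + 1), F i ≤ B ∧ ∑ i ∈ Ico 1 (K + 1), F (i - 1) ≤ B := by
    intro F hF B hB
    constructor
    · refine le_trans (Finset.sum_le_sum_of_subset_of_nonneg ?_ fun i _ _ => hF i) hB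
      intro i hi
      rw [Finset.mem_Ico] at hi
      exact Finset.mem_range.2 hi.2
    · have h1 : ∑ i ∈ Ico 1 (K + 1), F (i - 1) = ∑ i ∈ range K, F i := by
        rw [Finset.sum_Ico_eq_sum_range]
        simp only [Nat.add_sub_cancel, Nat.add_sub_cancel_left]
      rw [h1]
      refine le_trans (Finset.sum_le_sum_of_subset_of_nonneg ?_ fun i _ _ => hF i) hB
      intro i hi
      rw [Finset.mem_range] at hi ⊢
      omega
  obtain ⟨hD1, hD2⟩ := hshift D hD0 (51 / 50 * N 0) (by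
    have := hsN (K + 1) le_rfl
    have h2 := hN0 (K + 1)
    push_cast at this
    rw [hN00] at hKη hεN
    rw [hN01] at hεN
    linarith)
  obtain ⟨hH1, hH2⟩ := hshift (fun i => H (d i) (d i)) (fun i => H0 _) (51 / 50 * (ε * N 0)) (by
    have := hsH (K + 1) le_rfl
    have h2 := H0 (u (K + 1))
    have h3 : H (u 0) (u 0) ≤ ε * N 0 := hH
    push_cast at this
    rw [hN00] at hKη
    linarith)
  -- `2 ^ j L (d j) = e j - 2 e (j - 1)`
  have hLd : ∀ j, 1 ≤ j → j ≤ K → (2 : ℝ) ^ j • L (d j) = e j - (2 : ℝ) • e (j - 1) := by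
    intro j hj1 hjK
    have h3 : (2 : ℝ) ^ j • L (u j) = (2 : ℝ) • ((2 : ℝ) ^ (j - 1) • L (u j)) := by
      rw [smul_smul, ← pow_succ', Nat.sub_add_cancel hj1]
    show (2 : ℝ) ^ j • L (u j - u (j + 1)) = -((2 : ℝ) ^ j • L (u (j + 1))) -
      (2 : ℝ) • -((2 : ℝ) ^ (j - 1) • L (u (j - 1 + 1)))
    rw [map_sub, smul_sub, h3, Nat.sub_add_cancel hj1, smul_neg]
    abel
  have hLq : ∀ j, 1 ≤ j → j ≤ K → ((2 : ℝ) ^ j) ^ 2 * ip (L (d j)) (L (d j)) ≤
        2 * D j + 8 * D (j - 1) + 20 * η := by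
    intro j hj1 hjK
    rw [← form_smul, hLd j hj1 hjK]
    have h1 := form_sub_two_le ip ips ip0 (e j) (e (j - 1))
    have h2 := hee j hjK
    have h3 := hee (j - 1) (by omega)
    linarith
  have hMq : ∀ j, 1 ≤ j → j ≤ K → (2 : ℝ) ^ j * M (d j) ≤ H (d (j - 1)) (d (j - 1)) + 6 * η := by
    intro j hj1 hjK
    have h1 := mul_le_mul_of_nonneg_left (hM (d j)) (hs j).le
    have h2 : (2 : ℝ) ^ j * -H (L (d j)) (d j) = -H ((2 : ℝ) ^ j • L (d j)) (d j) := by
      rw [map_smul, LinearMap.smul_apply, smul_eq_mul]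
      ring
    rw [h2, hLd j hj1 hjK] at h1
    have h3 : e j = d j + r j := by rw [hed j hjK]; abel
    have h4 : e (j - 1) = d (j - 1) + r (j - 1) := by rw [hed (j - 1) (by omega)]; abel
    have h5 : -H (e j - (2 : ℝ) • e (j - 1)) (d j) =
        -H (d j) (d j) + 2 * H (d (j - 1)) (d j) - H (d j) (r j) + 2 * H (d j) (r (j - 1)) := by
      rw [h3, h4]
      simp only [map_sub, map_add, LinearMap.sub_apply, LinearMap.add_apply, map_smul,
        LinearMap.smul_apply, smul_eq_mul]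
      rw [Hs (r j) (d j), Hs (r (j - 1)) (d j)]
      ring
    have h6 : 2 * H (d (j - 1)) (d j) ≤ H (d (j - 1)) (d (j - 1)) + H (d j) (d j) := by
      have h7 := H0 (d (j - 1) - d j)
      simp only [map_sub, LinearMap.sub_apply] at h7
      rw [Hs (d j) (d (j - 1))] at h7
      linarith
    have h8 : ∀ i ≤ K, |H (d j) (r i)| ≤ 2 * η := by
      intro i hi
      have h9 : H (d j) (r i) = H (u j) (r i) - H (u (j + 1)) (r i) := by
        show H (u j - u (j + 1)) (r i) = _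
        rw [map_sub, LinearMap.sub_apply]
      rw [h9]
      have h10 := hc.e4 i hi j hjK
      have h11 := hc.e4 i hi (j - 1) (by omega)
      rw [Nat.sub_add_cancel hj1] at h11
      calc |H (u j) (r i) - H (u (j + 1)) (r i)| ≤ |H (u j) (r i)| + |H (u (j + 1)) (r i)| :=
            abs_sub _ _
        _ ≤ 2 * η := by linarith
    have h12 := abs_le.1 (h8 j hjK)
    have h13 := abs_le.1 (h8 (j - 1) (by omega))
    rw [h5] at h1
    linarith [h12.1, h12.2, h13.1, h13.2]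
  -- pigeonhole
  have hε' : (0 : ℝ) ≤ ε⁻¹ := inv_nonneg.2 hε.le
  by_contra hcon
  push Not at hcon
  have hlt : ∑ j ∈ Ico 1 (K + 1), 2000 * δ j < ∑ j ∈ Ico 1 (K + 1),
      (D j + (2 * D j + 8 * D (j - 1) + 20 * η) + ε⁻¹ * (H (d j) (d j) +
        (H (d (j - 1)) (d (j - 1)) + 6 * η)) + N 0 / (K + 1)) := by
    apply Finset.sum_lt_sum_of_nonempty ⟨1, Finset.mem_Ico.2 ⟨le_rfl, by omega⟩⟩
    intro j hj
    rw [Finset.mem_Ico] at hj
    refine lt_of_lt_of_le (hcon j hj.1 (by omega)) ?_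
    have h1 := hLq j hj.1 (by omega)
    have h2 := hMq j hj.1 (by omega)
    show D j + ((2 : ℝ) ^ j) ^ 2 * ip (L (d j)) (L (d j)) + ε⁻¹ * (H (d j) (d j) +
      (2 : ℝ) ^ j * M (d j)) + N 0 / (K + 1) ≤ _
    have h4 : ε⁻¹ * (H (d j) (d j) + (2 : ℝ) ^ j * M (d j)) ≤
        ε⁻¹ * (H (d j) (d j) + (H (d (j - 1)) (d (j - 1)) + 6 * η)) := by
      apply mul_le_mul_of_nonneg_left _ hε'
      linarith
    linarith
  have hsumR : ∑ j ∈ Ico 1 (K + 1),
      (D j + (2 * D j + 8 * D (j - 1) + 20 * η) + ε⁻¹ * (H (d j) (d j) +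
        (H (d (j - 1)) (d (j - 1)) + 6 * η)) + N 0 / (K + 1)) ≤ 20 * N 0 := by
    have e1 : ∑ j ∈ Ico 1 (K + 1), (D j + (2 * D j + 8 * D (j - 1) + 20 * η) +
          ε⁻¹ * (H (d j) (d j) + (H (d (j - 1)) (d (j - 1)) + 6 * η)) + N 0 / (K + 1)) =
        3 * ∑ j ∈ Ico 1 (K + 1), D j + 8 * ∑ j ∈ Ico 1 (K + 1), D (j - 1) +
          ε⁻¹ * (∑ j ∈ Ico 1 (K + 1), H (d j) (d j) +
            ∑ j ∈ Ico 1 (K + 1), H (d (j - 1)) (d (j - 1)) + ∑ _j ∈ Ico 1 (K + 1), 6 * η) +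
          ∑ _j ∈ Ico 1 (K + 1), (N 0 / (K + 1) + 20 * η) := by
      rw [mul_add, mul_add, Finset.mul_sum, Finset.mul_sum, Finset.mul_sum, Finset.mul_sum,
        Finset.mul_sum, ← Finset.sum_add_distrib, ← Finset.sum_add_distrib,
        ← Finset.sum_add_distrib, ← Finset.sum_add_distrib, ← Finset.sum_add_distrib]
      refine Finset.sum_congr rfl fun j _ => ?_
      ring
    rw [e1]
    have e2 : ∑ _j ∈ Ico 1 (K + 1), (N 0 / (K + 1) + 20 * η) ≤ 11 / 10 * N 0 := by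
      rw [Finset.sum_const, Nat.card_Ico, nsmul_eq_mul]
      simp only [Nat.add_sub_cancel]
      have hK' : (0 : ℝ) < (K : ℝ) + 1 := by positivity
      have h1 : (K : ℝ) * (N 0 / (K + 1)) ≤ N 0 := by
        rw [mul_div_assoc', div_le_iff₀ hK']
        nlinarith [hN0 0]
      rw [hN00] at hKη hεN
      rw [hN01] at hεN
      rw [mul_add]
      linarith
    have e3 : ε⁻¹ * (∑ j ∈ Ico 1 (K + 1), H (d j) (d j) +
        ∑ j ∈ Ico 1 (K + 1), H (d (j - 1)) (d (j - 1)) + ∑ _j ∈ Ico 1 (K + 1), 6 * η) ≤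
        3 * N 0 := by
      have h0 : ∑ _j ∈ Ico 1 (K + 1), 6 * η = 6 * (K * η) := by
        rw [Finset.sum_const, Nat.card_Ico, nsmul_eq_mul]
        simp only [Nat.add_sub_cancel]
        ring
      have h1 : ∑ j ∈ Ico 1 (K + 1), H (d j) (d j) +
        ∑ j ∈ Ico 1 (K + 1), H (d (j - 1)) (d (j - 1)) + ∑ _j ∈ Ico 1 (K + 1), 6 * η ≤
          3 * (ε * N 0) := by
        rw [h0]
        rw [hN00] at hKη
        linarith
      calc _ ≤ ε⁻¹ * (3 * (ε * N 0)) := mul_le_mul_of_nonneg_left h1 hε'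
        _ = 3 * N 0 := by field_simp
    linarith [hN0 0]
  rw [← Finset.mul_sum] at hlt
  linarith

end Vale.Agent.P284.H501
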